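import Mathlib.Analysis.SpecialFunctions.Pow.Integral
import Vale.Agent.P117.Bdl.B1

/-! # Pointwise broad–narrow inequality and sublinear interpolation -/

open MeasureTheory Complex Set
open scoped ENNReal NNReal

set_option linter.all false

namespace Vale.Agent.P106.Tri

open Vale.Agent.P117 (Adm)

/-- Pointwise broad–narrow inequality for non-negative numbers. -/
theorem broad_narrow_real (J : Finset ℤ) (K : ℕ) (hJ : J.card ≤ K) (v : ℤ → ℝ) (hv : ∀ j, 0 ≤ v j) :
    (∑ j ∈ J, v j) ^ 3 ≤ 8000 * ∑ j ∈ J, v j ^ 3 + 8 * (K : ℝ) ^ 3 *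
      ∑ j ∈ J, ∑ k ∈ J with 3 ≤ |k - j|, ∑ l ∈ J with 3 ≤ |l - j| ∧ 3 ≤ |l - k|, v j * v k * v l := by
  classical
  set S := ∑ j ∈ J, v j with hS
  have hS0 : 0 ≤ S := Finset.sum_nonneg fun j _ => hv j
  set T := ∑ j ∈ J, ∑ k ∈ J with 3 ≤ |k - j|, ∑ l ∈ J with 3 ≤ |l - j| ∧ 3 ≤ |l - k|, v j * v k * v l with hT
  have hT0 : 0 ≤ T := Finset.sum_nonneg fun j _ => Finset.sum_nonneg fun k _ =>
    Finset.sum_nonneg fun l _ => mul_nonneg (mul_nonneg (hv _) (hv _)) (hv _)
  have hK0 : (0:ℝ) ≤ K := Nat.cast_nonneg K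
  -- near sums
  have near : ∀ (m : ℤ) (M : ℝ), (∀ j ∈ J, v j ≤ M) → 0 ≤ M → ∑ j ∈ J with |j - m| < 3, v j ≤ 5 * M := by
    intro m M hM hM0
    calc ∑ j ∈ J with |j - m| < 3, v j ≤ ∑ j ∈ J with |j - m| < 3, M :=
          Finset.sum_le_sum fun j hj => hM j (Finset.mem_filter.1 hj).1
      _ = ((J.filter fun j => |j - m| < 3).card : ℝ) * M := by rw [Finset.sum_const, nsmul_eq_mul]
      _ ≤ 5 * M := by
          gcongr
          have hsub : (J.filter fun j => |j - m| < 3) ⊆ Finset.Icc (m - 2) (m + 2) := by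
            intro j hj
            have := (Finset.mem_filter.1 hj).2
            rw [abs_lt] at this
            rw [Finset.mem_Icc]
            constructor <;> omega
          have h2 := Finset.card_le_card hsub
          rw [Int.card_Icc] at h2
          have h3 : (m + 2 + 1 - (m - 2)).toNat = 5 := by
            have : m + 2 + 1 - (m - 2) = 5 := by ring
            rw [this]; rfl
          rw [h3] at h2
          exact_mod_cast h2
  rcases J.eq_empty_or_nonempty with h0 | h0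
  · have : S = 0 := by rw [hS, h0]; simp
    rw [this]
    have h1 : 0 ≤ ∑ j ∈ J, v j ^ 3 := Finset.sum_nonneg fun j _ => pow_nonneg (hv j) 3
    have h2 : 0 ≤ 8000 * ∑ j ∈ J, v j ^ 3 + 8 * (K : ℝ) ^ 3 * T :=
      add_nonneg (mul_nonneg (by norm_num) h1) (mul_nonneg (by positivity) hT0)
    simpa using h2
  obtain ⟨j1, hj1, hmax1⟩ := J.exists_max_image v h0
  have hsum1 : v j1 ^ 3 ≤ ∑ j ∈ J, v j ^ 3 :=
    Finset.single_le_sum (f := fun j => v j ^ 3) (fun j _ => pow_nonneg (hv j) 3) hj1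
  have c1 : S ≤ 5 * v j1 + ∑ j ∈ J with 3 ≤ |j - j1|, v j := by
    have h := Finset.sum_filter_add_sum_filter_not J (fun j => |j - j1| < 3) v
    simp only [not_lt] at h
    have h' := near j1 _ hmax1 (hv _)
    linarith
  set J2 := J.filter (fun j => 3 ≤ |j - j1|) with hJ2
  have key : S ≤ 20 * v j1 → S ^ 3 ≤ 8000 * ∑ j ∈ J, v j ^ 3 + 8 * (K : ℝ) ^ 3 * T := by
    intro h
    calc S ^ 3 ≤ (20 * v j1) ^ 3 := by gcongr
      _ = 8000 * v j1 ^ 3 := by ring
      _ ≤ 8000 * ∑ j ∈ J, v j ^ 3 := by gcongr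
      _ ≤ _ := by
        have : 0 ≤ 8 * (K : ℝ) ^ 3 * T := mul_nonneg (by positivity) hT0
        linarith
  rcases J2.eq_empty_or_nonempty with h2 | h2
  · apply key
    rw [h2] at c1
    simp only [Finset.sum_empty, add_zero] at c1
    have := hv j1
    linarith
  obtain ⟨j2, hj2, hmax2⟩ := J2.exists_max_image v h2
  have hj2J : j2 ∈ J := (Finset.mem_filter.1 hj2).1
  have c2 : ∑ j ∈ J2, v j ≤ 5 * v j1 + ∑ j ∈ J2 with 3 ≤ |j - j2|, v j := by
    have h := Finset.sum_filter_add_sum_filter_not J2 (fun j => |j - j2| < 3) v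
    simp only [not_lt] at h
    have h' : ∑ j ∈ J2 with |j - j2| < 3, v j ≤ 5 * v j1 :=
      calc ∑ j ∈ J2 with |j - j2| < 3, v j ≤ ∑ j ∈ J with |j - j2| < 3, v j := by
            apply Finset.sum_le_sum_of_subset_of_nonneg
            · intro j hj
              have h := Finset.mem_filter.1 hj
              exact Finset.mem_filter.2 ⟨(Finset.mem_filter.1 h.1).1, h.2⟩
            · intro j _ _; exact hv j
        _ ≤ _ := near j2 _ hmax1 (hv _)
    linarith
  set J3 := J2.filter (fun j => 3 ≤ |j - j2|) with hJ3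
  rcases J3.eq_empty_or_nonempty with h3 | h3
  · apply key
    rw [h3] at c2
    simp only [Finset.sum_empty, add_zero] at c2
    have := hv j1
    linarith
  obtain ⟨j3, hj3, hmax3⟩ := J3.exists_max_image v h3
  have hj3J2 : j3 ∈ J2 := (Finset.mem_filter.1 hj3).1
  have hj3J : j3 ∈ J := (Finset.mem_filter.1 hj3J2).1
  have c3 : ∑ j ∈ J3, v j ≤ K * v j3 := by
    calc ∑ j ∈ J3, v j ≤ ∑ j ∈ J3, v j3 := Finset.sum_le_sum fun j hj => hmax3 j hj
      _ = (J3.card : ℝ) * v j3 := by rw [Finset.sum_const, nsmul_eq_mul]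
      _ ≤ K * v j3 := by
        gcongr
        · exact hv _
        · refine le_trans ?_ hJ
          exact Finset.card_le_card ((Finset.filter_subset _ _).trans (Finset.filter_subset _ _))
  have v21 : v j2 ≤ v j1 := hmax1 j2 hj2J
  have v32 : v j3 ≤ v j2 := hmax2 j3 hj3J2
  have v3 := hv j3
  by_cases hbig : (K:ℝ) * v j3 ≤ S / 2
  · apply key; linarith
  · push Not at hbig
    have hT1 : v j1 * v j2 * v j3 ≤ T := by
      rw [hT]
      have n3 : ∀ j k l : ℤ, 0 ≤ v j * v k * v l := fun j k l => mul_nonneg (mul_nonneg (hv _) (hv _)) (hv _)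
      calc v j1 * v j2 * v j3 ≤ ∑ l ∈ J with 3 ≤ |l - j1| ∧ 3 ≤ |l - j2|, v j1 * v j2 * v l := by
            apply Finset.single_le_sum (f := fun l => v j1 * v j2 * v l) (fun l _ => n3 _ _ _)
            rw [Finset.mem_filter]
            exact ⟨hj3J, (Finset.mem_filter.1 hj3J2).2, (Finset.mem_filter.1 hj3).2⟩
        _ ≤ ∑ k ∈ J with 3 ≤ |k - j1|, ∑ l ∈ J with 3 ≤ |l - j1| ∧ 3 ≤ |l - k|, v j1 * v k * v l := by
            apply Finset.single_le_sum (f := fun k => ∑ l ∈ J with 3 ≤ |l - j1| ∧ 3 ≤ |l - k|, v j1 * v k * v l)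
              (fun k _ => Finset.sum_nonneg fun l _ => n3 _ _ _)
            rw [Finset.mem_filter]
            exact ⟨hj2J, (Finset.mem_filter.1 hj2).2⟩
        _ ≤ _ := by
            apply Finset.single_le_sum (f := fun j => ∑ k ∈ J with 3 ≤ |k - j|,
              ∑ l ∈ J with 3 ≤ |l - j| ∧ 3 ≤ |l - k|, v j * v k * v l)
              (fun j _ => Finset.sum_nonneg fun k _ => Finset.sum_nonneg fun l _ => n3 _ _ _) hj1
    have h1 : S ≤ 2 * (K * v j3) := by linarith
    have h5 : 0 ≤ ∑ j ∈ J, v j ^ 3 := Finset.sum_nonneg fun j _ => pow_nonneg (hv j) 3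
    calc S ^ 3 ≤ (2 * (K * v j3)) ^ 3 := by gcongr
      _ = 8 * (K:ℝ) ^ 3 * (v j3 * v j3 * v j3) := by ring
      _ ≤ 8 * (K:ℝ) ^ 3 * (v j1 * v j2 * v j3) := by
          have h6 : v j3 * v j3 ≤ v j1 * v j2 := mul_le_mul (v32.trans v21) v32 v3 (hv _)
          gcongr
      _ ≤ 8 * (K:ℝ) ^ 3 * T := by gcongr
      _ ≤ _ := by linarith

/-- Pointwise broad–narrow inequality for complex numbers, in extended non-negative form. -/
theorem broad_narrow (J : Finset ℤ) (K : ℕ) (hJ : J.card ≤ K) (v : ℤ → ℂ) :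
    ‖∑ j ∈ J, v j‖ₑ ^ 3 ≤ 8000 * ∑ j ∈ J, ‖v j‖ₑ ^ 3 + 8 * (K : ℝ≥0∞) ^ 3 *
      ∑ j ∈ J, ∑ k ∈ J with 3 ≤ |k - j|, ∑ l ∈ J with 3 ≤ |l - j| ∧ 3 ≤ |l - k|,
        ‖v j‖ₑ * ‖v k‖ₑ * ‖v l‖ₑ := by
  have h := broad_narrow_real J K hJ (fun j => ‖v j‖) (fun j => norm_nonneg _)
  have h1 : ‖∑ j ∈ J, v j‖ ^ 3 ≤ (∑ j ∈ J, ‖v j‖) ^ 3 := by
    gcongr; exact norm_sum_le _ _
  have h2 := ENNReal.ofReal_le_ofReal (h1.trans h)
  have n3 : ∀ j k l : ℤ, 0 ≤ ‖v j‖ * ‖v k‖ * ‖v l‖ := fun j k l => by positivity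
  rw [ENNReal.ofReal_pow (norm_nonneg _), ofReal_norm, ENNReal.ofReal_add (by positivity)
    (mul_nonneg (by positivity) (Finset.sum_nonneg fun j _ => Finset.sum_nonneg fun k _ =>
      Finset.sum_nonneg fun l _ => n3 _ _ _)), ENNReal.ofReal_mul (by norm_num),
    ENNReal.ofReal_mul (by positivity), ENNReal.ofReal_mul (by norm_num),
    ENNReal.ofReal_pow (by positivity), ENNReal.ofReal_natCast,
    ENNReal.ofReal_sum_of_nonneg (fun j _ => by positivity),
    ENNReal.ofReal_sum_of_nonneg (fun j _ => Finset.sum_nonneg fun k _ =>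
      Finset.sum_nonneg fun l _ => n3 _ _ _)] at h2
  refine h2.trans (le_of_eq ?_)
  congr 1
  · congr 1
    · norm_num
    · refine Finset.sum_congr rfl fun j _ => ?_
      rw [ENNReal.ofReal_pow (norm_nonneg _), ofReal_norm]
  · congr 1
    · norm_num
    · refine Finset.sum_congr rfl fun j _ => ?_
      rw [ENNReal.ofReal_sum_of_nonneg (fun k _ => Finset.sum_nonneg fun l _ => n3 _ _ _)]
      refine Finset.sum_congr rfl fun k _ => ?_
      rw [ENNReal.ofReal_sum_of_nonneg (fun l _ => n3 _ _ _)]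
      refine Finset.sum_congr rfl fun l _ => ?_
      rw [ENNReal.ofReal_mul (by positivity), ENNReal.ofReal_mul (by positivity), ofReal_norm,
        ofReal_norm, ofReal_norm]

/-- Marcinkiewicz interpolation between `L²` and `L^∞` for sublinear operators, at exponent 3. -/
theorem sublinear_interp {X Y : Type*} [MeasurableSpace X] [MeasurableSpace Y] (μ : Measure X)
    [SFinite μ] (ν : Measure Y) (T : (X → ℂ) → Y → ℝ≥0∞) {A B : ℝ} (hA : 0 ≤ A) (hB : 0 ≤ B)
    (hm : ∀ f, Adm μ f → Measurable (T f))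
    (hsub : ∀ f g, Adm μ f → Adm μ g → ∀ y, T (fun x => f x + g x) y ≤ T f y + T g y)
    (h2 : ∀ f, Adm μ f → ∫⁻ y, T f y ^ 2 ∂ν ≤ ENNReal.ofReal A * ∫⁻ x, ‖f x‖ₑ ^ 2 ∂μ)
    (hinf : ∀ f, Adm μ f → ∀ M : ℝ, (∀ x, ‖f x‖ ≤ M) → ∀ y, T f y ≤ ENNReal.ofReal (B * M))
    {f : X → ℂ} (hf : Adm μ f) :
    ∫⁻ y, T f y ^ 3 ∂ν ≤ ENNReal.ofReal (24 * A * B) * ∫⁻ x, ‖f x‖ₑ ^ 3 ∂μ := by
  obtain ⟨M, hM⟩ := hf.bdd
  rcases hB.eq_or_lt with hB0 | hB0
  · have : ∀ y, T f y = 0 := by
      intro y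
      have := hinf f hf M hM y
      rw [← hB0, zero_mul, ENNReal.ofReal_zero] at this
      exact le_antisymm this zero_le
    simp [this]
  have hfin : ∀ y, T f y ≠ ⊤ := fun y => ne_top_of_le_ne_top ENNReal.ofReal_ne_top (hinf f hf M hM y)
  set φ : Y → ℝ := fun y => (T f y).toReal with hφ
  have hφm : Measurable φ := (hm f hf).ennreal_toReal
  have e1 : ∫⁻ y, T f y ^ 3 ∂ν = ∫⁻ y, ENNReal.ofReal (φ y ^ (3:ℝ)) ∂ν := by
    refine lintegral_congr fun y => ?_
    rw [hφ]
    simp only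
    rw [← ENNReal.ofReal_rpow_of_nonneg ENNReal.toReal_nonneg (by norm_num), ENNReal.ofReal_toReal (hfin y)]
    norm_num
  rw [e1, MeasureTheory.lintegral_rpow_eq_lintegral_meas_lt_mul ν (Filter.Eventually.of_forall fun y =>
    ENNReal.toReal_nonneg) hφm.aemeasurable (by norm_num)]
  -- truncations
  set fh : ℝ → X → ℂ := fun t => {x | t < 2 * B * ‖f x‖}.indicator f with hfh
  set fl : ℝ → X → ℂ := fun t => {x | t < 2 * B * ‖f x‖}ᶜ.indicator f with hfl
  have hset : ∀ t : ℝ, MeasurableSet {x | t < 2 * B * ‖f x‖} := fun t =>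
    measurableSet_lt measurable_const (hf.meas.norm.const_mul _)
  have hadm : ∀ s : Set X, MeasurableSet s → Adm μ (s.indicator f) := by
    intro s hs
    refine ⟨hf.meas.indicator hs, hf.int.indicator hs, M, fun x => ?_⟩
    exact (norm_indicator_le_norm_self f x).trans (hM x)
  have key : ∀ t ∈ Ioi (0:ℝ), ν {y | t < φ y} * ENNReal.ofReal (t ^ ((3:ℝ) - 1)) ≤
      4 * (ENNReal.ofReal A * ∫⁻ x, ‖fh t x‖ₑ ^ 2 ∂μ) := by
    intro t ht
    have ht' : (0:ℝ) < t := ht
    have hsubset : {y | t < φ y} ⊆ {y | ENNReal.ofReal ((t/2)^2) ≤ T (fh t) y ^ 2} := by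
      intro y hy
      rw [mem_setOf_eq] at hy ⊢
      have h1 : T f y ≤ T (fh t) y + T (fl t) y := by
        have := hsub (fh t) (fl t) (hadm _ (hset t)) (hadm _ (hset t).compl) y
        have e : (fun x => fh t x + fl t x) = f := by
          ext x
          exact congrFun (indicator_self_add_compl _ f) x
        rwa [e] at this
      have h3 : T (fl t) y ≤ ENNReal.ofReal (t / 2) := by
        have := hinf (fl t) (hadm _ (hset t).compl) (t / (2 * B)) (by
          intro x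
          simp only [hfl, indicator]
          split_ifs with hx
          · simp only [mem_compl_iff, mem_setOf_eq, not_lt] at hx
            rw [le_div_iff₀ (by positivity)]
            linarith
          · rw [norm_zero]; positivity) y
        refine this.trans (le_of_eq ?_)
        congr 1
        field_simp
      have h4 : ENNReal.ofReal t < T f y := by
        rw [← ENNReal.ofReal_toReal (hfin y)]
        exact (ENNReal.ofReal_lt_ofReal_iff (ht'.trans hy)).2 hy
      have h5 : ENNReal.ofReal (t/2) ≤ T (fh t) y := by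
        by_contra hcon
        push Not at hcon
        have : T f y < ENNReal.ofReal t := by
          calc T f y ≤ T (fh t) y + T (fl t) y := h1
            _ < ENNReal.ofReal (t/2) + ENNReal.ofReal (t/2) :=
              ENNReal.add_lt_add_of_lt_of_le (ne_top_of_le_ne_top ENNReal.ofReal_ne_top h3) hcon h3
            _ = ENNReal.ofReal t := by
              rw [← ENNReal.ofReal_add (by positivity) (by positivity)]; congr 1; ring
        exact absurd this (not_lt.2 h4.le)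
      rw [ENNReal.ofReal_pow (by positivity)]
      gcongr
    have hmk := mul_meas_ge_le_lintegral (μ := ν) ((hm (fh t) (hadm _ (hset t))).pow_const 2)
      (ENNReal.ofReal ((t/2)^2))
    calc ν {y | t < φ y} * ENNReal.ofReal (t ^ ((3:ℝ) - 1)) =
        4 * (ENNReal.ofReal ((t/2)^2) * ν {y | t < φ y}) := by
          have : ENNReal.ofReal (t ^ ((3:ℝ) - 1)) = 4 * ENNReal.ofReal ((t/2)^2) := by
            rw [show (4 : ℝ≥0∞) = ENNReal.ofReal 4 by norm_num, ← ENNReal.ofReal_mul (by norm_num)]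
            congr 1
            norm_num
            ring
          rw [this]; ring
      _ ≤ 4 * (ENNReal.ofReal ((t/2)^2) * ν {y | ENNReal.ofReal ((t/2)^2) ≤ T (fh t) y ^ 2}) := by
          gcongr
      _ ≤ 4 * ∫⁻ y, T (fh t) y ^ 2 ∂ν := by gcongr
      _ ≤ _ := by
          gcongr
          exact h2 _ (hadm _ (hset t))
  have mF : Measurable (fun p : ℝ × X => ‖fh p.1 p.2‖ₑ ^ 2) := by
    have hs : MeasurableSet {p : ℝ × X | p.1 < 2 * B * ‖f p.2‖} :=
      measurableSet_lt measurable_fst ((hf.meas.comp measurable_snd).norm.const_mul _)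
    have : (fun p : ℝ × X => fh p.1 p.2) = {p : ℝ × X | p.1 < 2 * B * ‖f p.2‖}.indicator (fun p => f p.2) := by
      ext p
      simp only [hfh, indicator, mem_setOf_eq]
    have h6 : Measurable (fun p : ℝ × X => fh p.1 p.2) := by
      rw [this]
      exact (hf.meas.comp measurable_snd).indicator hs
    exact h6.enorm.pow_const 2
  calc ENNReal.ofReal 3 * ∫⁻ t in Ioi (0:ℝ), ν {y | t < φ y} * ENNReal.ofReal (t ^ ((3:ℝ) - 1)) ≤
      ENNReal.ofReal 3 * ∫⁻ t in Ioi (0:ℝ), 4 * (ENNReal.ofReal A * ∫⁻ x, ‖fh t x‖ₑ ^ 2 ∂μ) := by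
        exact mul_le_mul' le_rfl (setLIntegral_mono' measurableSet_Ioi key)
    _ = ENNReal.ofReal 3 * (4 * (ENNReal.ofReal A * ∫⁻ t in Ioi (0:ℝ), ∫⁻ x, ‖fh t x‖ₑ ^ 2 ∂μ)) := by
        rw [lintegral_const_mul' _ _ (by norm_num), lintegral_const_mul' _ _ ENNReal.ofReal_ne_top]
    _ = ENNReal.ofReal 3 * (4 * (ENNReal.ofReal A * ∫⁻ x, (∫⁻ t in Ioi (0:ℝ), ‖fh t x‖ₑ ^ 2) ∂μ)) := by
        rw [lintegral_lintegral_swap]
        exact mF.aemeasurable
    _ = ENNReal.ofReal 3 * (4 * (ENNReal.ofReal A * ∫⁻ x, ENNReal.ofReal (2 * B) * ‖f x‖ₑ ^ 3 ∂μ)) := by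
        congr 3
        refine lintegral_congr fun x => ?_
        have e : ∀ t : ℝ, ‖fh t x‖ₑ ^ 2 = (Iio (2 * B * ‖f x‖)).indicator (fun _ => ‖f x‖ₑ ^ 2) t := by
          intro t
          simp only [hfh, indicator, mem_setOf_eq, mem_Iio]
          split_ifs <;> simp
        simp_rw [e]
        rw [lintegral_indicator measurableSet_Iio, Measure.restrict_restrict measurableSet_Iio,
          setLIntegral_const, Iio_inter_Ioi, Real.volume_Ioo, sub_zero,
          ENNReal.ofReal_mul (by positivity), ofReal_norm]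
        ring
    _ = _ := by
        rw [lintegral_const_mul' _ _ ENNReal.ofReal_ne_top, show (4:ℝ≥0∞) = ENNReal.ofReal 4 by norm_num]
        rw [← mul_assoc, ← mul_assoc, ← mul_assoc, ← ENNReal.ofReal_mul (by norm_num),
          ← ENNReal.ofReal_mul (by norm_num), ← ENNReal.ofReal_mul (by positivity)]
        congr 2
        ring

end Vale.Agent.P106.Tri
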