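import Vale.Agent.P106.Tri.Step

/-! # The trilinear estimate -/

open MeasureTheory Complex Set
open scoped ENNReal NNReal ContDiff FourierTransform SchwartzMap ComplexConjugate

set_option linter.all false

namespace Vale.Agent.P106.Tri

open Vale.Agent.P117 (E2 E3)

/-- the plate -/
def Nn (q : ℝ × ℝ → ℝ) (c : ℝ × ℝ) (δ' ρ : ℝ) : Set E3 := {ζ | ‖hz ζ - c‖ ≤ δ' ∧ |ζ 2 - q (hz ζ)| ≤ ρ}

theorem measurableSet_Nn {q : ℝ × ℝ → ℝ} (hq : Measurable q) (c : ℝ × ℝ) (δ' ρ : ℝ) :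
    MeasurableSet (Nn q c δ' ρ) := by
  have h1 : Measurable (fun ζ : E3 => ‖hz ζ - c‖) := ((measurable_hz).sub_const c).norm
  have h2 : Measurable (fun ζ : E3 => |ζ 2 - q (hz ζ)|) := by
    have a : Measurable (fun ζ : E3 => ζ 2) := by fun_prop
    have b : Measurable (fun ζ : E3 => ζ 2 - q (hz ζ)) := a.sub (hq.comp measurable_hz)
    have := b.norm
    simpa [Real.norm_eq_abs] using this
  exact (measurableSet_le h1 measurable_const).inter (measurableSet_le h2 measurable_const)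

theorem volume_Nn_le {q : ℝ × ℝ → ℝ} (hq : Measurable q) (c : ℝ × ℝ) {δ' ρ : ℝ} (hδ : 0 ≤ δ') (hρ : 0 ≤ ρ) :
    volume (Nn q c δ' ρ) ≤ ENNReal.ofReal (8 * δ' ^ 2 * ρ) := by
  set F : (ℝ × ℝ) × ℝ → ℝ≥0∞ := fun z =>
    (Metric.closedBall c δ').indicator (fun _ => (1 : ℝ≥0∞)) z.1 * box ρ (z.2 - q z.1) with hF
  have mF : Measurable F := by
    rw [hF]
    refine Measurable.mul ?_ ?_
    · exact (measurable_const.indicator measurableSet_closedBall).comp measurable_fst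
    · exact (measurable_box ρ).comp (measurable_snd.sub (hq.comp measurable_fst))
  have h1 : volume (Nn q c δ' ρ) = ∫⁻ x : E3, F ((x 0, x 1), x 2) := by
    rw [← lintegral_indicator_one (measurableSet_Nn hq c δ' ρ)]
    refine lintegral_congr fun x => ?_
    simp only [hF, Nn, indicator, mem_setOf_eq, Metric.mem_closedBall, dist_eq_norm, hz, box, Pi.one_apply]
    by_cases h1 : ‖((x 0, x 1) : ℝ × ℝ) - c‖ ≤ δ'
    · by_cases h2 : |x 2 - q (x 0, x 1)| ≤ ρ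
      · simp [h1, h2]
      · simp [h1, h2]
    · simp [h1]
  rw [h1, Vale.Agent.P117.lintegral_E3 F, Measure.volume_eq_prod, lintegral_prod _ mF.aemeasurable]
  have h2 : ∀ ξ : ℝ × ℝ, ∫⁻ v : ℝ, F (ξ, v) =
      ENNReal.ofReal (2 * ρ) * (Metric.closedBall c δ').indicator (fun _ => (1 : ℝ≥0∞)) ξ := by
    intro ξ
    simp only [hF]
    rw [lintegral_const_mul _ (mbr _ _), lintegral_box' hρ, mul_comm]
  simp_rw [h2]
  rw [lintegral_const_mul _ (measurable_const.indicator measurableSet_closedBall),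
    lintegral_indicator measurableSet_closedBall, setLIntegral_const, one_mul,
    ← closedBall_prod_same, Measure.volume_eq_prod, Measure.prod_prod, Real.volume_closedBall,
    Real.volume_closedBall, ← ENNReal.ofReal_mul (by positivity), ← ENNReal.ofReal_mul (by positivity)]
  apply ENNReal.ofReal_le_ofReal
  apply le_of_eq
  ring

theorem enorm_inv_le (g : E3 → ℂ) (z : E3) : ‖𝓕⁻ g z‖ₑ ≤ ∫⁻ ζ, ‖g ζ‖ₑ := by
  rw [inv_eq]
  refine (enorm_integral_le_lintegral_enorm _).trans (le_of_eq ?_)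
  refine lintegral_congr fun ζ => ?_
  rw [enorm_mul, enorm_ec, one_mul]

theorem Gd.sup_le {q : ℝ × ℝ → ℝ} (hq : Measurable q) {c : ℝ × ℝ} {δ' ρ : ℝ} (hδ : 0 ≤ δ') (hρ : 0 ≤ ρ)
    {g : E3 → ℂ} (h : Gd q c δ' ρ g) (z : E3) :
    ‖𝓕⁻ g z‖ₑ ≤ ENNReal.ofReal ((8 * δ' ^ 2 * ρ) ^ (1/2 : ℝ)) * (∫⁻ ζ, ‖g ζ‖ₑ ^ 2) ^ (1/2 : ℝ) := by
  have hN := measurableSet_Nn hq c δ' ρ
  calc ‖𝓕⁻ g z‖ₑ ≤ ∫⁻ ζ, ‖g ζ‖ₑ := enorm_inv_le g z
    _ = ∫⁻ ζ, ((Nn q c δ' ρ).indicator (fun _ => (1 : ℝ≥0∞)) ζ) ^ (1/2 : ℝ) * (‖g ζ‖ₑ ^ 2) ^ (1/2 : ℝ) := by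
        refine lintegral_congr fun ζ => ?_
        have e : (‖g ζ‖ₑ ^ 2) ^ (1/2 : ℝ) = ‖g ζ‖ₑ := by
          rw [← ENNReal.rpow_natCast, ← ENNReal.rpow_mul]; norm_num
        rw [e]
        by_cases h0 : g ζ = 0
        · simp [h0]
        · have : ζ ∈ Nn q c δ' ρ := h.supp ζ h0
          simp [this]
    _ ≤ (∫⁻ ζ, (Nn q c δ' ρ).indicator (fun _ => (1 : ℝ≥0∞)) ζ) ^ (1/2 : ℝ) *
          (∫⁻ ζ, ‖g ζ‖ₑ ^ 2) ^ (1/2 : ℝ) :=
        lintegral_sqrt_mul_le _ (measurable_const.indicator hN) (h.meas.enorm.pow_const _)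
    _ ≤ _ := by
        gcongr
        rw [lintegral_indicator hN, setLIntegral_const, one_mul,
          ← ENNReal.ofReal_rpow_of_nonneg (by positivity) (by norm_num)]
        gcongr
        exact volume_Nn_le hq c hδ hρ

theorem triBd_base {q : Fin 3 → ℝ × ℝ → ℝ} (hq : ∀ i, Measurable (q i)) (c : Fin 3 → ℝ × ℝ) {δ' ρ : ℝ}
    (hδ : 0 ≤ δ') (hρ : 0 ≤ ρ) : TriBd q c ((8 * δ' ^ 2 * ρ) ^ (1/2 : ℝ)) δ' ρ := by
  intro g hg
  set J : Fin 3 → ℝ≥0∞ := fun i => ∫⁻ ζ, ‖g i ζ‖ₑ ^ 2 with hJ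
  have m0 := (measurable_inv (hg 0).int).enorm
  have m1 := (measurable_inv (hg 1).int).enorm
  have e : ∀ x : ℝ≥0∞, (x ^ 2) ^ (1/2 : ℝ) = x := by
    intro x
    rw [← ENNReal.rpow_natCast, ← ENNReal.rpow_mul]; norm_num
  calc ∫⁻ z, ‖𝓕⁻ (g 0) z‖ₑ * ‖𝓕⁻ (g 1) z‖ₑ * ‖𝓕⁻ (g 2) z‖ₑ ≤
      ∫⁻ z, ‖𝓕⁻ (g 0) z‖ₑ * ‖𝓕⁻ (g 1) z‖ₑ *
        (ENNReal.ofReal ((8 * δ' ^ 2 * ρ) ^ (1/2 : ℝ)) * J 2 ^ (1/2 : ℝ)) := by
        gcongr with z
        exact (hg 2).sup_le (hq 2) hδ hρ z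
    _ = (∫⁻ z, ‖𝓕⁻ (g 0) z‖ₑ * ‖𝓕⁻ (g 1) z‖ₑ) *
        (ENNReal.ofReal ((8 * δ' ^ 2 * ρ) ^ (1/2 : ℝ)) * J 2 ^ (1/2 : ℝ)) := by
        have m01 : Measurable (fun z => ‖𝓕⁻ (g 0) z‖ₑ * ‖𝓕⁻ (g 1) z‖ₑ) := m0.mul m1
        rw [lintegral_mul_const _ m01]
    _ ≤ (J 0 ^ (1/2 : ℝ) * J 1 ^ (1/2 : ℝ)) *
        (ENNReal.ofReal ((8 * δ' ^ 2 * ρ) ^ (1/2 : ℝ)) * J 2 ^ (1/2 : ℝ)) := by
        gcongr
        calc ∫⁻ z, ‖𝓕⁻ (g 0) z‖ₑ * ‖𝓕⁻ (g 1) z‖ₑ =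
              ∫⁻ z, (‖𝓕⁻ (g 0) z‖ₑ ^ 2) ^ (1/2 : ℝ) * (‖𝓕⁻ (g 1) z‖ₑ ^ 2) ^ (1/2 : ℝ) := by
              simp only [e]
          _ ≤ (∫⁻ z, ‖𝓕⁻ (g 0) z‖ₑ ^ 2) ^ (1/2 : ℝ) * (∫⁻ z, ‖𝓕⁻ (g 1) z‖ₑ ^ 2) ^ (1/2 : ℝ) :=
              lintegral_sqrt_mul_le _ (m0.pow_const _) (m1.pow_const _)
          _ ≤ _ := by
              gcongr
              · exact lintegral_sq_inv_le (hg 0).int (hg 0).meas
              · exact lintegral_sq_inv_le (hg 1).int (hg 1).meas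
    _ = _ := by ring

/-- the iteration -/
theorem triBd_iter : ∃ C : ℝ, 0 < C ∧ ∀ (q : Fin 3 → ℝ × ℝ → ℝ) (c w : Fin 3 → ℝ × ℝ) (ν L δ θ : ℝ)
    (_ : 0 < ν) (_ : ν ≤ |dt (nv (w 0)) (nv (w 1)) (nv (w 2))|) (_ : 0 ≤ L)
    (_ : ∀ i, |(w i).1| ≤ L ∧ |(w i).2| ≤ L) (_ : 0 < θ) (_ : θ ≤ 1/2) (_ : 0 < δ)
    (_ : ∀ i, Measurable (q i)) (_ : ∀ i, LinAt (q i) (c i) (w i) δ θ) (n : ℕ),
    TriBd q c ((C * ν ^ (-1/2 : ℝ) * (1 + L) ^ (3/2 : ℝ) * θ ^ (3/2 : ℝ)) ^ n * (8 * δ ^ 2 * δ) ^ (1/2 : ℝ))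
      (δ / 2 + θ ^ n * δ / 2) (θ ^ n * δ) := by
  obtain ⟨C, hC, hstep⟩ := step
  refine ⟨C, hC, ?_⟩
  intro q c w ν L δ θ hν hdet hL hw hθ hθ' hδ hqm hq n
  induction n with
  | zero =>
    have := triBd_base hqm c hδ.le hδ.le
    simp only [pow_zero, one_mul]
    refine this.mono le_rfl (by linarith) le_rfl
  | succ n ih =>
    set ρ := θ ^ n * δ with hρd
    have hρ : 0 < ρ := by rw [hρd]; positivity
    have hρδ : ρ ≤ δ := by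
      rw [hρd]
      have : θ ^ n ≤ 1 := pow_le_one₀ hθ.le (by linarith)
      nlinarith
    set κ := ρ / (4 * (1 + L)) with hκ
    have hκρ : κ ≤ ρ / 4 := by
      rw [hκ]
      apply div_le_div_of_nonneg_left hρ.le (by norm_num) (by nlinarith)
    have e1 : θ ^ (n + 1) * δ = θ * ρ := by rw [hρd]; ring
    have e2 : θ ^ (n + 1) * δ / 2 = θ * ρ / 2 := by rw [e1]
    rw [e1]
    have hA : 0 ≤ (C * ν ^ (-1/2 : ℝ) * (1 + L) ^ (3/2 : ℝ) * θ ^ (3/2 : ℝ)) ^ n *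
        (8 * δ ^ 2 * δ) ^ (1/2 : ℝ) := by positivity
    have hb : δ / 2 + θ * ρ / 2 + κ ≤ δ / 2 + ρ / 2 := by nlinarith
    have := hstep q c w ν L δ (δ / 2 + θ * ρ / 2) θ ρ κ _ hν hdet hL hw hθ hθ' hρ hq hκ (by linarith) hA
      (ih.mono le_rfl hb le_rfl)
    refine this.mono (le_of_eq ?_) le_rfl le_rfl
    rw [pow_succ]; ring

/-- the extension operator -/
noncomputable def Vf (a : ℝ × ℝ → ℂ) (q : ℝ × ℝ → ℝ) (z : E3) : ℂ :=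
  ∫ ξ : ℝ × ℝ, a ξ * ec (z 0 * ξ.1 + z 1 * ξ.2 + z 2 * q ξ)

/-- the graph -/
noncomputable def gam (q : ℝ × ℝ → ℝ) (ξ : ℝ × ℝ) : E3 := !₂[ξ.1, ξ.2, q ξ]

theorem inner_gam (q : ℝ × ℝ → ℝ) (ξ : ℝ × ℝ) (z : E3) :
    inner ℝ (gam q ξ) z = z 0 * ξ.1 + z 1 * ξ.2 + z 2 * q ξ := by
  unfold gam
  simp [PiLp.inner_apply, Fin.sum_univ_three]

theorem measurable_gam {q : ℝ × ℝ → ℝ} (hq : Measurable q) : Measurable (gam q) := by
  unfold gam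
  apply (WithLp.measurable_toLp 2 (Fin 3 → ℝ)).comp
  apply measurable_pi_lambda
  intro i
  fin_cases i
  · exact measurable_fst
  · exact measurable_snd
  · exact hq

theorem measurable_Vf {a : ℝ × ℝ → ℂ} {q : ℝ × ℝ → ℝ} (ha : Measurable a) (hq : Measurable q) :
    Measurable (Vf a q) := by
  unfold Vf
  have h : Measurable (fun p : E3 × (ℝ × ℝ) => a p.2 * ec (p.1 0 * p.2.1 + p.1 1 * p.2.2 + p.1 2 * q p.2)) := by
    refine (ha.comp measurable_snd).mul (continuous_ec.measurable.comp ?_)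
    have hq2 : Measurable (fun p : E3 × (ℝ × ℝ) => q p.2) := hq.comp measurable_snd
    refine Measurable.add (by fun_prop) (Measurable.mul (by fun_prop) hq2)
  exact (h.stronglyMeasurable.integral_prod_right').measurable

theorem norm_Vf_le (a : ℝ × ℝ → ℂ) (q : ℝ × ℝ → ℝ) (z : E3) : ‖Vf a q z‖ ≤ ∫ ξ, ‖a ξ‖ := by
  unfold Vf
  refine (norm_integral_le_integral_norm _).trans (le_of_eq ?_)
  congr 1
  ext ξ
  rw [norm_mul, norm_ec, mul_one]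

/-- the smeared measure -/
noncomputable def gs (κ : ℝ) (a : ℝ × ℝ → ℂ) (q : ℝ × ℝ → ℝ) (y ζ : E3) : ℂ :=
  ∫ ξ : ℝ × ℝ, a ξ * ky κ y (ζ - gam q ξ)

section gs
variable {κ : ℝ} (hκ : 0 < κ) {a : ℝ × ℝ → ℂ} (ha : Measurable a) (hai : Integrable a)
  {q : ℝ × ℝ → ℝ} (hq : Measurable q) (y : E3)

include hq in
theorem measurable_ky_gam (ζ : E3) : Measurable (fun ξ => ky κ y (ζ - gam q ξ)) :=
  (continuous_ky κ y).measurable.comp ((measurable_gam hq).const_sub ζ)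

include ha hai hq in
theorem continuous_gs : Continuous (gs κ a q y) := by
  obtain ⟨C, hC⟩ := Kk_bdd κ
  unfold gs
  refine continuous_of_dominated (bound := fun ξ => C * ‖a ξ‖) ?_ ?_ (hai.norm.const_mul _) ?_
  · intro ζ
    exact (ha.mul (measurable_ky_gam hq y ζ)).aestronglyMeasurable
  · intro ζ
    filter_upwards with ξ
    rw [norm_mul, norm_ky, mul_comm]
    gcongr
    exact hC _
  · filter_upwards with ξ
    have := continuous_ky κ y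
    fun_prop

include hκ ha hai hq in
theorem integrable_gs_prod : Integrable (fun p : E3 × (ℝ × ℝ) => a p.2 * ky κ y (p.1 - gam q p.2))
    (volume.prod volume) := by
  have hm : Measurable (fun p : E3 × (ℝ × ℝ) => a p.2 * ky κ y (p.1 - gam q p.2)) :=
    (ha.comp measurable_snd).mul ((continuous_ky κ y).measurable.comp
      (measurable_fst.sub ((measurable_gam hq).comp measurable_snd)))
  rw [integrable_prod_iff' hm.aestronglyMeasurable]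
  constructor
  · filter_upwards with ξ
    exact ((integrable_ky hκ y).comp_sub_right (gam q ξ)).const_mul _
  · have : ∀ ξ : ℝ × ℝ, ∫ ζ : E3, ‖a ξ * ky κ y (ζ - gam q ξ)‖ = ‖a ξ‖ * ∫ η : E3, ‖ky κ y η‖ := by
      intro ξ
      simp_rw [norm_mul]
      rw [integral_const_mul, integral_sub_right_eq_self (fun ζ => ‖ky κ y ζ‖)]
    simp_rw [this]
    exact hai.norm.mul_const _

include hκ ha hai hq in
theorem integrable_gs : Integrable (gs κ a q y) :=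
  (integrable_gs_prod hκ ha hai hq y).integral_prod_left

include hκ ha hai hq in
theorem inv_gs (z : E3) : 𝓕⁻ (gs κ a q y) z = Psi (κ • (z - y)) * Vf a q z := by
  rw [inv_eq]
  unfold gs
  simp_rw [← integral_const_mul]
  rw [integral_integral_swap]
  · have e : ∀ ξ : ℝ × ℝ, ∫ ζ : E3, ec (inner ℝ ζ z) * (a ξ * ky κ y (ζ - gam q ξ)) =
        Psi (κ • (z - y)) * (a ξ * ec (z 0 * ξ.1 + z 1 * ξ.2 + z 2 * q ξ)) := by
      intro ξ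
      rw [← inv_ky hκ, inv_eq, ← inner_gam]
      rw [← integral_add_right_eq_self (fun ζ : E3 => ec (inner ℝ ζ z) * (a ξ * ky κ y (ζ - gam q ξ))) (gam q ξ)]
      rw [← integral_mul_const]
      congr 1
      ext η
      rw [add_sub_cancel_right, inner_add_left, ec_add]
      ring
    simp_rw [e]
    rw [integral_const_mul]
    rfl
  · have h := integrable_gs_prod hκ ha hai hq y
    have hB : Continuous (fun p : E3 × (ℝ × ℝ) => ec (inner ℝ p.1 z)) := by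
      have := continuous_ec
      fun_prop
    refine Integrable.mono h (hB.aestronglyMeasurable.mul h.aestronglyMeasurable) ?_
    filter_upwards with p
    simp only [Function.uncurry, norm_mul, norm_ec, one_mul]
    exact le_rfl

include hκ ha hai hq in
theorem gs_L2 : ∫⁻ ζ, ‖gs κ a q y ζ‖ₑ ^ 2 ≤ ∫⁻ z, ‖Psi (κ • (z - y)) * Vf a q z‖ₑ ^ 2 := by
  have hg := integrable_gs hκ ha hai hq y
  have hc : Continuous (gs κ a q y) := continuous_gs ha hai hq y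
  have hPi : Integrable (fun z : E3 => Psi (κ • (z - y))) := by
    have h1 : Integrable (fun z : E3 => Psi (κ • z)) := Psi.integrable.comp_smul hκ.ne'
    exact h1.comp_sub_right y
  have hi : Integrable (fun z => Psi (κ • (z - y)) * Vf a q z) := by
    apply hPi.mul_bdd (c := ∫ ξ, ‖a ξ‖) (measurable_Vf ha hq).aestronglyMeasurable
    filter_upwards with z
    exact norm_Vf_le a q z
  have he : 𝓕⁻ (gs κ a q y) = fun z => Psi (κ • (z - y)) * Vf a q z := by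
    ext z; exact inv_gs hκ ha hai hq y z
  have hinv : 𝓕 (𝓕⁻ (gs κ a q y)) = gs κ a q y := by
    apply hc.fourier_fourierInv_eq hg
    rw [← Vale.Agent.P117.integrable_fourierInv_iff, he]
    exact hi
  have hm : Measurable (fun z => Psi (κ • (z - y)) * Vf a q z) :=
    (Psi.continuous.measurable.comp (by fun_prop)).mul (measurable_Vf ha hq)
  have := Vale.Agent.P117.lintegral_sq_fourier_le hi hm
  rw [← he, hinv] at this
  exact this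

include hκ ha hai hq in
theorem gs_Gd {c w : ℝ × ℝ} {δ θ L ρ : ℝ} (hθ : 0 ≤ θ) (hθ' : θ ≤ 1/2) (hρ : 0 < ρ) (hL : 0 ≤ L)
    (hw1 : |w.1| ≤ L) (hw2 : |w.2| ≤ L) (hlin : LinAt q c w δ θ)
    (hκd : κ = ρ / (4 * (1 + L))) (hδ : δ / 2 + κ ≤ δ)
    (hsupp : ∀ ξ, a ξ ≠ 0 → ‖ξ - c‖ ≤ δ / 2) : Gd q c (δ / 2 + κ) ρ (gs κ a q y) := by
  refine ⟨(continuous_gs ha hai hq y).measurable, integrable_gs hκ ha hai hq y, ?_⟩
  intro ζ hζ
  have : ∃ ξ, a ξ ≠ 0 ∧ ‖ζ - gam q ξ‖ ≤ κ := by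
    by_contra hcon
    push Not at hcon
    apply hζ
    unfold gs
    rw [integral_eq_zero_of_ae]
    filter_upwards with ξ
    by_cases ht : a ξ = 0
    · simp [ht]
    · have := hcon ξ ht
      have h2 : Kk κ (ζ - gam q ξ) = 0 := by
        by_contra h3
        exact absurd (Kk_supp hκ h3) (not_le.2 this)
      unfold ky
      simp [h2]
  obtain ⟨ξ, hξ, htκ⟩ := this
  have s1 := hsupp ξ hξ
  have hzg : hz (gam q ξ) = ξ := rfl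
  have d1 : ‖hz ζ - ξ‖ ≤ κ := by
    have := (hz_sub_le ζ (gam q ξ)).trans htκ
    rwa [hzg] at this
  have d2 : ‖hz ζ - c‖ ≤ δ / 2 + κ := by
    calc ‖hz ζ - c‖ = ‖(hz ζ - ξ) + (ξ - c)‖ := by congr 1; abel
      _ ≤ ‖hz ζ - ξ‖ + ‖ξ - c‖ := norm_add_le _ _
      _ ≤ _ := by linarith
  refine ⟨d2, ?_⟩
  have d3 := hlin (hz ζ) ξ (d2.trans hδ) (s1.trans (by linarith))
  have e1 : |ζ 2 - q ξ| ≤ κ := by
    have h := abs_coord_le (ζ - gam q ξ) 2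
    have h2 : (ζ - gam q ξ) 2 = ζ 2 - q ξ := rfl
    rw [h2] at h
    exact h.trans htκ
  have e2 : |(hz ζ).1 - ξ.1| ≤ κ := by
    have := norm_fst_le (hz ζ - ξ)
    rw [Real.norm_eq_abs] at this
    exact this.trans d1
  have e3 : |(hz ζ).2 - ξ.2| ≤ κ := by
    have := norm_snd_le (hz ζ - ξ)
    rw [Real.norm_eq_abs] at this
    exact this.trans d1
  have e4 : |w.1 * ((hz ζ).1 - ξ.1) + w.2 * ((hz ζ).2 - ξ.2)| ≤ 2 * L * κ := by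
    calc _ ≤ |w.1| * |(hz ζ).1 - ξ.1| + |w.2| * |(hz ζ).2 - ξ.2| := by
          rw [← abs_mul, ← abs_mul]; exact abs_add_le _ _
      _ ≤ L * κ + L * κ := by gcongr
      _ = _ := by ring
  have e5 : θ * ‖hz ζ - ξ‖ ≤ θ * κ := by gcongr
  have e6 : |ζ 2 - q (hz ζ)| ≤ κ + (2 * L * κ + θ * κ) := by
    have : ζ 2 - q (hz ζ) = (ζ 2 - q ξ) -
        ((q (hz ζ) - q ξ - (w.1 * ((hz ζ).1 - ξ.1) + w.2 * ((hz ζ).2 - ξ.2))) +
          (w.1 * ((hz ζ).1 - ξ.1) + w.2 * ((hz ζ).2 - ξ.2))) := by ring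
    rw [this]
    refine (abs_sub _ _).trans ?_
    refine add_le_add e1 ((abs_add_le _ _).trans ?_)
    linarith
  have e7 : κ * (4 * (1 + L)) = ρ := by rw [hκd]; field_simp
  nlinarith

end gs

theorem Psi_decay (N : ℕ) : ∃ C : ℝ, 0 < C ∧ ∀ x : E3, ‖Psi x‖ ^ 2 ≤ C * ((1 + ‖x‖) ^ N)⁻¹ := by
  obtain ⟨C0, h0⟩ := Psi.decay 0 0
  obtain ⟨C2, h2⟩ := Psi.decay N 0
  have hC0 := h0.1
  have hC2 := h2.1
  refine ⟨C0 * (2 ^ N * (C0 + C2)) + 1, by positivity, fun x => ?_⟩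
  have a0 := h0.2 x
  have a2 := h2.2 x
  simp only [pow_zero, one_mul, norm_iteratedFDeriv_zero] at a0 a2
  have h3 : (1 + ‖x‖) ^ N * ‖Psi x‖ ≤ 2 ^ N * (C0 + C2) := by
    have hb : (1 + ‖x‖) ^ N ≤ 2 ^ N * (1 + ‖x‖ ^ N) := by
      rcases le_total ‖x‖ 1 with h | h
      · calc (1 + ‖x‖) ^ N ≤ 2 ^ N := by gcongr; linarith
          _ ≤ 2 ^ N * (1 + ‖x‖ ^ N) := by
            have : 0 ≤ ‖x‖ ^ N := by positivity
            nlinarith [pow_pos (show (0:ℝ) < 2 by norm_num) N]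
      · calc (1 + ‖x‖) ^ N ≤ (2 * ‖x‖) ^ N := by gcongr; linarith
          _ = 2 ^ N * ‖x‖ ^ N := by rw [mul_pow]
          _ ≤ 2 ^ N * (1 + ‖x‖ ^ N) := by
            have : 0 < (2:ℝ) ^ N := by positivity
            nlinarith
    calc (1 + ‖x‖) ^ N * ‖Psi x‖ ≤ (2 ^ N * (1 + ‖x‖ ^ N)) * ‖Psi x‖ := by gcongr
      _ = 2 ^ N * (‖Psi x‖ + ‖x‖ ^ N * ‖Psi x‖) := by ring
      _ ≤ _ := by gcongr
  rw [← div_eq_mul_inv, le_div_iff₀ (by positivity)]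
  calc ‖Psi x‖ ^ 2 * (1 + ‖x‖) ^ N = ‖Psi x‖ * ((1 + ‖x‖) ^ N * ‖Psi x‖) := by ring
    _ ≤ C0 * (2 ^ N * (C0 + C2)) := by gcongr
    _ ≤ _ := by linarith

/-- **The trilinear estimate.** Three pieces of surfaces `t = q i` with transversal normals and small
oscillation of the gradient: the product of the three extension operators over a ball of radius `H`
gains `H^{-3/2}` (up to `H^ε`) against the weighted `L²` norms. -/
theorem trilinear : ∀ (ν L ε : ℝ), 0 < ν → 0 ≤ L → 0 < ε → ε ≤ 1 → ∃ θ : ℝ, 0 < θ ∧ θ ≤ 1/2 ∧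
    ∀ (N : ℕ) (δ : ℝ), 0 < δ → ∃ C : ℝ, 0 < C ∧
    ∀ (q : Fin 3 → ℝ × ℝ → ℝ) (c w : Fin 3 → ℝ × ℝ) (a : Fin 3 → ℝ × ℝ → ℂ),
      (∀ i, Measurable (q i)) → (∀ i, Measurable (a i)) → (∀ i, Integrable (a i)) →
      ν ≤ |dt (nv (w 0)) (nv (w 1)) (nv (w 2))| → (∀ i, |(w i).1| ≤ L ∧ |(w i).2| ≤ L) →
      (∀ i, LinAt (q i) (c i) (w i) δ θ) → (∀ i ξ, a i ξ ≠ 0 → ‖ξ - c i‖ ≤ δ / 2) →
      ∀ (H : ℝ) (y : E3), 1 ≤ H →
      ∫⁻ z in Metric.closedBall y H, ‖Vf (a 0) (q 0) z‖ₑ * ‖Vf (a 1) (q 1) z‖ₑ * ‖Vf (a 2) (q 2) z‖ₑ ≤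
        ENNReal.ofReal (C * H ^ (ε - 3/2)) *
          ((∫⁻ z, ‖Vf (a 0) (q 0) z‖ₑ ^ 2 * ENNReal.ofReal (((1 + ‖z - y‖ / H) ^ N)⁻¹)) ^ (1/2 : ℝ) *
           (∫⁻ z, ‖Vf (a 1) (q 1) z‖ₑ ^ 2 * ENNReal.ofReal (((1 + ‖z - y‖ / H) ^ N)⁻¹)) ^ (1/2 : ℝ) *
           (∫⁻ z, ‖Vf (a 2) (q 2) z‖ₑ ^ 2 * ENNReal.ofReal (((1 + ‖z - y‖ / H) ^ N)⁻¹)) ^ (1/2 : ℝ)) := by
  obtain ⟨C₁, hC₁, hiter⟩ := triBd_iter
  intro ν L ε hν hL hε hε1
  set B := C₁ * ν ^ (-1/2 : ℝ) * (1 + L) ^ (3/2 : ℝ) with hB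
  have hB0 : 0 < B := by positivity
  -- choice of θ
  obtain ⟨θ, hθ, hθ2, hθB⟩ : ∃ θ : ℝ, 0 < θ ∧ θ ≤ 1/2 ∧ B * θ ^ (3/2 : ℝ) ≤ θ ^ (3/2 - ε) := by
    refine ⟨min (1/2) ((B + 1) ^ (-ε⁻¹)), by positivity, min_le_left _ _, ?_⟩
    set θ := min (1/2) ((B + 1) ^ (-ε⁻¹)) with hθd
    have hθ0 : 0 < θ := by rw [hθd]; positivity
    have h1 : θ ^ ε ≤ (B + 1)⁻¹ := by
      calc θ ^ ε ≤ ((B + 1) ^ (-ε⁻¹)) ^ ε := Real.rpow_le_rpow hθ0.le (min_le_right _ _) hε.le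
        _ = (B + 1)⁻¹ := by
          rw [← Real.rpow_mul (by positivity), neg_mul, inv_mul_cancel₀ hε.ne', Real.rpow_neg_one]
    have h2 : B * θ ^ ε ≤ 1 := by
      calc B * θ ^ ε ≤ B * (B + 1)⁻¹ := by gcongr
        _ ≤ 1 := by
          rw [← div_eq_mul_inv, div_le_one (by positivity)]; linarith
    have h3 : θ ^ (3/2 : ℝ) = θ ^ (3/2 - ε) * θ ^ ε := by
      rw [← Real.rpow_add hθ0]; congr 1; ring
    rw [h3]
    calc B * (θ ^ (3/2 - ε) * θ ^ ε) = θ ^ (3/2 - ε) * (B * θ ^ ε) := by ring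
      _ ≤ θ ^ (3/2 - ε) * 1 := by gcongr
      _ = _ := mul_one _
  refine ⟨θ, hθ, hθ2, ?_⟩
  intro N δ hδ
  obtain ⟨r₀, hr₀, hlow⟩ := Psi_low
  obtain ⟨CN, hCN, hdec⟩ := Psi_decay N
  set β := δ / (4 * (1 + L)) with hβ
  have hβ0 : 0 < β := by positivity
  set μ := min 1 (min β (θ * r₀)) with hμ
  have hμ0 : 0 < μ := by rw [hμ]; positivity
  have hμ1 : μ ≤ 1 := min_le_left _ _
  have hθ1 : θ < 1 := by linarith
  refine ⟨8 * (8 * δ ^ 2 * δ) ^ (1/2 : ℝ) * (r₀ / β) ^ (3/2 - ε) * ((CN * μ⁻¹ ^ N) ^ (1/2 : ℝ)) ^ 3,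
    by positivity, ?_⟩
  intro q c w a hqm ham hai hdet hw hq hsupp H y hH
  -- choice of the scale
  obtain ⟨n, hn1, hn2⟩ : ∃ n : ℕ, β * θ ^ n * H ≤ r₀ ∧ μ ≤ β * θ ^ n * H := by
    have hex : ∃ n : ℕ, β * θ ^ n * H ≤ r₀ := by
      obtain ⟨n, hn⟩ := exists_pow_lt_of_lt_one (show 0 < r₀ / (β * H) by positivity) hθ1
      refine ⟨n, ?_⟩
      have := hn.le
      rw [le_div_iff₀ (by positivity)] at this
      linarith
    classical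
    refine ⟨Nat.find hex, Nat.find_spec hex, ?_⟩
    rcases Nat.eq_zero_or_pos (Nat.find hex) with h0 | h0
    · rw [h0, pow_zero, mul_one]
      calc μ ≤ β := (min_le_right _ _).trans (min_le_left _ _)
        _ ≤ β * H := by nlinarith
    · have hm := Nat.find_min hex (Nat.sub_lt h0 one_pos)
      push Not at hm
      have e : θ ^ (Nat.find hex) = θ * θ ^ (Nat.find hex - 1) := by
        rw [← pow_succ']
        congr 1
        omega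
      rw [e]
      calc μ ≤ θ * r₀ := (min_le_right _ _).trans (min_le_right _ _)
        _ ≤ θ * (β * θ ^ (Nat.find hex - 1) * H) := by gcongr
        _ = _ := by ring
  set κ := β * θ ^ n with hκ
  have hκ0 : 0 < κ := by positivity
  set ρ := θ ^ n * δ with hρ
  have hρ0 : 0 < ρ := by positivity
  have hκρ : κ = ρ / (4 * (1 + L)) := by rw [hκ, hρ, hβ]; ring
  have hρδ : ρ ≤ δ := by
    rw [hρ]
    have : θ ^ n ≤ 1 := pow_le_one₀ hθ.le hθ1.le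
    nlinarith
  have hκ4 : κ ≤ ρ / 4 := by
    rw [hκρ]
    apply div_le_div_of_nonneg_left hρ0.le (by norm_num) (by nlinarith)
  have hT := hiter q c w ν L δ θ hν hdet hL hw hθ hθ2 hδ hqm hq n
  rw [← hρ] at hT
  have hT2 := hT (fun i => gs κ (a i) (q i) y) (fun i =>
    (gs_Gd hκ0 (ham i) (hai i) (hqm i) y hθ.le hθ2 hρ0 hL (hw i).1 (hw i).2 (hq i) hκρ (by linarith)
      (hsupp i)).mono (by linarith) le_rfl)
  simp only [inv_gs hκ0 (ham 0) (hai 0) (hqm 0) y, inv_gs hκ0 (ham 1) (hai 1) (hqm 1) y,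
    inv_gs hκ0 (ham 2) (hai 2) (hqm 2) y] at hT2
  set wt : E3 → ℝ≥0∞ := fun z => ENNReal.ofReal (((1 + ‖z - y‖ / H) ^ N)⁻¹) with hwt
  have mwt : Measurable wt := by rw [hwt]; fun_prop
  -- the L2 norms
  have hL2 : ∀ i, (∫⁻ ζ, ‖gs κ (a i) (q i) y ζ‖ₑ ^ 2) ^ (1/2 : ℝ) ≤
      ENNReal.ofReal ((CN * μ⁻¹ ^ N) ^ (1/2 : ℝ)) * (∫⁻ z, ‖Vf (a i) (q i) z‖ₑ ^ 2 * wt z) ^ (1/2 : ℝ) := by
    intro i
    calc (∫⁻ ζ, ‖gs κ (a i) (q i) y ζ‖ₑ ^ 2) ^ (1/2 : ℝ) ≤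
          (ENNReal.ofReal (CN * μ⁻¹ ^ N) * ∫⁻ z, ‖Vf (a i) (q i) z‖ₑ ^ 2 * wt z) ^ (1/2 : ℝ) := by
          gcongr
          refine (gs_L2 hκ0 (ham i) (hai i) (hqm i) y).trans ?_
          rw [← lintegral_const_mul' _ _ ENNReal.ofReal_ne_top]
          refine lintegral_mono fun z => ?_
          rw [enorm_mul, mul_pow]
          have h1 : ‖Psi (κ • (z - y))‖ₑ ^ 2 ≤ ENNReal.ofReal (CN * μ⁻¹ ^ N) * wt z := by
            rw [← ofReal_norm, ← ENNReal.ofReal_pow (norm_nonneg _), hwt,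
              ← ENNReal.ofReal_mul (by positivity)]
            apply ENNReal.ofReal_le_ofReal
            refine (hdec _).trans ?_
            rw [norm_smul, Real.norm_of_nonneg hκ0.le]
            have hin : μ * (1 + ‖z - y‖ / H) ≤ 1 + κ * ‖z - y‖ := by
              have h1 : μ / H ≤ κ := by rw [div_le_iff₀ (by linarith)]; exact hn2
              have h2 : μ * (‖z - y‖ / H) ≤ κ * ‖z - y‖ := by
                calc μ * (‖z - y‖ / H) = μ / H * ‖z - y‖ := by ring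
                  _ ≤ _ := by gcongr
              nlinarith
            have hin2 : ((1 + κ * ‖z - y‖) ^ N)⁻¹ ≤ ((μ * (1 + ‖z - y‖ / H)) ^ N)⁻¹ := by
              apply inv_anti₀ (by positivity)
              gcongr
            rw [mul_pow, mul_inv, ← inv_pow μ N] at hin2
            calc CN * ((1 + κ * ‖z - y‖) ^ N)⁻¹ ≤ CN * (μ⁻¹ ^ N * ((1 + ‖z - y‖ / H) ^ N)⁻¹) := by gcongr
              _ = _ := by ring
          calc _ ≤ (ENNReal.ofReal (CN * μ⁻¹ ^ N) * wt z) * ‖Vf (a i) (q i) z‖ₑ ^ 2 := by gcongr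
            _ = _ := by ring
      _ = _ := by
          rw [ENNReal.mul_rpow_of_nonneg _ _ (by norm_num),
            ENNReal.ofReal_rpow_of_nonneg (by positivity) (by norm_num)]
  set A := (B * θ ^ (3/2 : ℝ)) ^ n * (8 * δ ^ 2 * δ) ^ (1/2 : ℝ) with hA
  have hA0 : 0 ≤ A := by rw [hA]; positivity
  -- lower bound of the windows
  have hwin : ∀ z ∈ Metric.closedBall y H, ‖Vf (a 0) (q 0) z‖ₑ * ‖Vf (a 1) (q 1) z‖ₑ * ‖Vf (a 2) (q 2) z‖ₑ ≤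
      8 * (‖Psi (κ • (z - y)) * Vf (a 0) (q 0) z‖ₑ * ‖Psi (κ • (z - y)) * Vf (a 1) (q 1) z‖ₑ *
        ‖Psi (κ • (z - y)) * Vf (a 2) (q 2) z‖ₑ) := by
    intro z hz
    rw [Metric.mem_closedBall, dist_eq_norm] at hz
    have h1 : 1/2 ≤ ‖Psi (κ • (z - y))‖ := by
      apply hlow
      rw [norm_smul, Real.norm_of_nonneg hκ0.le]
      calc κ * ‖z - y‖ ≤ κ * H := by gcongr
        _ ≤ r₀ := hn1
    have h2 : (1 : ℝ≥0∞) ≤ 8 * ‖Psi (κ • (z - y))‖ₑ ^ 3 := by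
      rw [← ofReal_norm, ← ENNReal.ofReal_pow (norm_nonneg _), show (8 : ℝ≥0∞) = ENNReal.ofReal 8 by norm_num,
        ← ENNReal.ofReal_mul (by norm_num), ← ENNReal.ofReal_one]
      apply ENNReal.ofReal_le_ofReal
      have : (1/2 : ℝ) ^ 3 ≤ ‖Psi (κ • (z - y))‖ ^ 3 := by gcongr
      linarith
    simp only [enorm_mul]
    calc ‖Vf (a 0) (q 0) z‖ₑ * ‖Vf (a 1) (q 1) z‖ₑ * ‖Vf (a 2) (q 2) z‖ₑ =
        1 * (‖Vf (a 0) (q 0) z‖ₑ * ‖Vf (a 1) (q 1) z‖ₑ * ‖Vf (a 2) (q 2) z‖ₑ) := (one_mul _).symm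
      _ ≤ (8 * ‖Psi (κ • (z - y))‖ₑ ^ 3) *
          (‖Vf (a 0) (q 0) z‖ₑ * ‖Vf (a 1) (q 1) z‖ₑ * ‖Vf (a 2) (q 2) z‖ₑ) := by gcongr
      _ = _ := by ring
  have hAle : A ≤ (8 * δ ^ 2 * δ) ^ (1/2 : ℝ) * (r₀ / β) ^ (3/2 - ε) * H ^ (ε - 3/2) := by
    have hθn : θ ^ n ≤ r₀ / β / H := by
      rw [le_div_iff₀ (by linarith), le_div_iff₀ hβ0]
      calc θ ^ n * H * β = κ * H := by rw [hκ]; ring
        _ ≤ r₀ := hn1
    have e1 : (B * θ ^ (3/2 : ℝ)) ^ n ≤ (θ ^ n) ^ (3/2 - ε) := by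
      calc (B * θ ^ (3/2 : ℝ)) ^ n ≤ (θ ^ (3/2 - ε)) ^ n := by gcongr
        _ = (θ ^ n) ^ (3/2 - ε) := by
          rw [← Real.rpow_natCast, ← Real.rpow_mul hθ.le, ← Real.rpow_natCast, ← Real.rpow_mul hθ.le,
            mul_comm]
    have e2 : (θ ^ n) ^ (3/2 - ε) ≤ (r₀ / β) ^ (3/2 - ε) * H ^ (ε - 3/2) := by
      calc (θ ^ n) ^ (3/2 - ε) ≤ (r₀ / β / H) ^ (3/2 - ε) :=
            Real.rpow_le_rpow (by positivity) hθn (by linarith)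
        _ = _ := by
          rw [Real.div_rpow (by positivity) (by linarith), div_eq_mul_inv, ← Real.rpow_neg (by linarith)]
          congr 2
          ring
    rw [hA]
    calc _ ≤ ((r₀ / β) ^ (3/2 - ε) * H ^ (ε - 3/2)) * (8 * δ ^ 2 * δ) ^ (1/2 : ℝ) := by
          gcongr
          exact e1.trans e2
      _ = _ := by ring
  set W : Fin 3 → ℝ≥0∞ := fun i => (∫⁻ z, ‖Vf (a i) (q i) z‖ₑ ^ 2 * wt z) ^ (1/2 : ℝ) with hW
  set D := (CN * μ⁻¹ ^ N) ^ (1/2 : ℝ) with hD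
  have hD0 : 0 ≤ D := by rw [hD]; positivity
  calc ∫⁻ z in Metric.closedBall y H, ‖Vf (a 0) (q 0) z‖ₑ * ‖Vf (a 1) (q 1) z‖ₑ * ‖Vf (a 2) (q 2) z‖ₑ ≤
      ∫⁻ z in Metric.closedBall y H, 8 * (‖Psi (κ • (z - y)) * Vf (a 0) (q 0) z‖ₑ *
        ‖Psi (κ • (z - y)) * Vf (a 1) (q 1) z‖ₑ * ‖Psi (κ • (z - y)) * Vf (a 2) (q 2) z‖ₑ) :=
        setLIntegral_mono' measurableSet_closedBall hwin
    _ ≤ ∫⁻ z, 8 * (‖Psi (κ • (z - y)) * Vf (a 0) (q 0) z‖ₑ *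
        ‖Psi (κ • (z - y)) * Vf (a 1) (q 1) z‖ₑ * ‖Psi (κ • (z - y)) * Vf (a 2) (q 2) z‖ₑ) :=
        setLIntegral_le_lintegral _ _
    _ = 8 * ∫⁻ z, ‖Psi (κ • (z - y)) * Vf (a 0) (q 0) z‖ₑ *
        ‖Psi (κ • (z - y)) * Vf (a 1) (q 1) z‖ₑ * ‖Psi (κ • (z - y)) * Vf (a 2) (q 2) z‖ₑ :=
        lintegral_const_mul' _ _ (by norm_num)
    _ ≤ 8 * (ENNReal.ofReal A * ((ENNReal.ofReal D * W 0) * (ENNReal.ofReal D * W 1) *
        (ENNReal.ofReal D * W 2))) := by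
        gcongr
        refine hT2.trans ?_
        gcongr
        · exact hL2 0
        · exact hL2 1
        · exact hL2 2
    _ = ENNReal.ofReal (8 * A * D ^ 3) * (W 0 * W 1 * W 2) := by
        rw [ENNReal.ofReal_mul (p := 8 * A) (by positivity), ENNReal.ofReal_mul (p := 8) (by norm_num),
          ENNReal.ofReal_pow hD0, show ENNReal.ofReal 8 = (8 : ℝ≥0∞) by norm_num]
        ring
    _ ≤ _ := by
        refine mul_le_mul_left (ENNReal.ofReal_le_ofReal ?_) _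
        calc 8 * A * D ^ 3 ≤ 8 * ((8 * δ ^ 2 * δ) ^ (1/2 : ℝ) * (r₀ / β) ^ (3/2 - ε) * H ^ (ε - 3/2)) * D ^ 3 := by
              gcongr
          _ = _ := by ring

end Vale.Agent.P106.Tri
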