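import Vale.Agent.P106.Tri.LWScaled

/-! # The window, the auxiliary functions and their local constancy -/

open MeasureTheory Complex Set
open scoped ENNReal NNReal ContDiff FourierTransform SchwartzMap ComplexConjugate

set_option linter.all false

namespace Vale.Agent.P106.Tri

open Vale.Agent.P117 (E2 E3 pj norm_pj integrable_pj continuous_pj integral_pj eta1_one rho_bound rho
  fourierInv_mul_conv lintegral_sq_fourier_le lintegral_w)

/-- character -/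
noncomputable def ec (t : ℝ) : ℂ := cexp (((2 * Real.pi * t : ℝ) : ℂ) * I)

theorem norm_ec (t : ℝ) : ‖ec t‖ = 1 := by unfold ec; exact Complex.norm_exp_ofReal_mul_I _
theorem enorm_ec (t : ℝ) : ‖ec t‖ₑ = 1 := by
  rw [← ofReal_norm, norm_ec, ENNReal.ofReal_one]
theorem ec_add (s t : ℝ) : ec (s + t) = ec s * ec t := by
  unfold ec; rw [← Complex.exp_add]; congr 1; push_cast; ring
theorem ec_zero : ec 0 = 1 := by unfold ec; simp
theorem continuous_ec : Continuous ec := by unfold ec; fun_prop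

theorem inv_eq (f : E3 → ℂ) (x : E3) : 𝓕⁻ f x = ∫ v, ec (inner ℝ v x) * f v := by
  rw [Real.fourierInv_eq']
  rfl

theorem lintegral_smul3 {R : ℝ} (hR : 0 < R) {f : E3 → ℝ≥0∞} (hf : Measurable f) :
    ∫⁻ x : E3, f (R • x) = ENNReal.ofReal ((R ^ 3)⁻¹) * ∫⁻ x, f x := by
  have h := Measure.map_addHaar_smul (volume : Measure E3) hR.ne'
  have hm : Measurable (fun x : E3 => R • x) := by fun_prop
  rw [← lintegral_map hf hm, h, lintegral_smul_measure, smul_eq_mul]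
  congr 2
  rw [finrank_euclideanSpace_fin, abs_of_pos (by positivity)]

/-- the bump -/
noncomputable def bmp : ContDiffBump (0 : E3) := ⟨1/2, 1, by norm_num, by norm_num⟩

noncomputable def K0 (x : E3) : ℂ := ((bmp.normed volume x : ℝ) : ℂ)

theorem contDiff_K0 : ContDiff ℝ ∞ K0 := by
  unfold K0
  exact Complex.ofRealCLM.contDiff.comp bmp.contDiff_normed

theorem hasCompactSupport_K0 : HasCompactSupport K0 := by
  have := bmp.hasCompactSupport_normed (μ := (volume : Measure E3))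
  exact this.comp_left (g := fun x : ℝ => (x : ℂ)) (by simp)

theorem K0_supp {x : E3} (h : K0 x ≠ 0) : ‖x‖ ≤ 1 := by
  have h1 : x ∈ Function.support (bmp.normed (volume : Measure E3)) := by
    intro h0
    apply h
    unfold K0
    rw [h0]; simp
  rw [bmp.support_normed_eq] at h1
  have : ‖x‖ < 1 := by simpa [bmp] using h1
  exact this.le

noncomputable def KS : 𝓢(E3, ℂ) := hasCompactSupport_K0.toSchwartzMap contDiff_K0

theorem KS_apply (x : E3) : KS x = K0 x := rfl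

/-- the window -/
noncomputable def Psi : 𝓢(E3, ℂ) := 𝓕⁻ KS

theorem Psi_eq (x : E3) : Psi x = 𝓕⁻ (KS : E3 → ℂ) x := by
  unfold Psi
  rw [SchwartzMap.fourierInv_coe]

theorem Psi_zero : Psi 0 = 1 := by
  rw [Psi_eq, inv_eq]
  simp only [inner_zero_right, ec_zero, one_mul, KS_apply]
  unfold K0
  have h : ∫ v : E3, ((bmp.normed volume v : ℝ) : ℂ) = ((∫ v : E3, bmp.normed volume v : ℝ) : ℂ) :=
    integral_complex_ofReal
  rw [h, bmp.integral_normed]
  simp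

theorem Psi_low : ∃ r : ℝ, 0 < r ∧ ∀ x : E3, ‖x‖ ≤ r → 1/2 ≤ ‖Psi x‖ := by
  have hc : Continuous (fun x : E3 => ‖Psi x‖) := Psi.continuous.norm
  have h0 : (1/2 : ℝ) < ‖Psi 0‖ := by rw [Psi_zero]; norm_num
  obtain ⟨r, hr, h⟩ := Metric.eventually_nhds_iff_ball.1 (hc.continuousAt.eventually (lt_mem_nhds h0))
  refine ⟨r / 2, by positivity, fun x hx => ?_⟩
  refine (h x ?_).le
  rw [Metric.mem_ball, dist_zero_right]
  linarith

theorem Psi_cube : ∃ c : ℝ, 0 < c ∧ ENNReal.ofReal c ≤ ∫⁻ x : E3, ‖Psi x‖ₑ ^ 3 := by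
  obtain ⟨r, hr, h⟩ := Psi_low
  set B := Metric.closedBall (0 : E3) r with hB
  have hvol : 0 < volume B := Metric.measure_closedBall_pos _ _ hr
  have hvol' : volume B ≠ ⊤ := (isCompact_closedBall _ _).measure_lt_top.ne
  refine ⟨(1/8) * (volume B).toReal, by
    have := ENNReal.toReal_pos hvol.ne' hvol'
    positivity, ?_⟩
  calc ENNReal.ofReal ((1/8) * (volume B).toReal) = ENNReal.ofReal (1/8) * volume B := by
        rw [ENNReal.ofReal_mul (by norm_num), ENNReal.ofReal_toReal hvol']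
    _ = ∫⁻ x in B, ENNReal.ofReal (1/8) := by rw [setLIntegral_const]
    _ ≤ ∫⁻ x in B, ‖Psi x‖ₑ ^ 3 := by
        apply setLIntegral_mono' measurableSet_closedBall
        intro x hx
        have hx' : ‖x‖ ≤ r := by simpa [hB] using hx
        have h1 : ENNReal.ofReal (1/2) ≤ ‖Psi x‖ₑ := by
          rw [← ofReal_norm]; exact ENNReal.ofReal_le_ofReal (h x hx')
        calc ENNReal.ofReal (1/8) = ENNReal.ofReal (1/2) ^ 3 := by
              rw [← ENNReal.ofReal_pow (by norm_num)]; norm_num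
          _ ≤ _ := by gcongr
    _ ≤ _ := setLIntegral_le_lintegral _ _

theorem KS_sq : ∃ c : ℝ, 0 ≤ c ∧ ∫⁻ x : E3, ‖KS x‖ₑ ^ 2 ≤ ENNReal.ofReal c := by
  have h : ∫⁻ x : E3, ‖KS x‖ₑ ^ 2 ≠ ⊤ := by
    have h2 := (KS.memLp 2 (volume : Measure E3)).eLpNorm_ne_top
    intro h3
    apply h2
    rw [Vale.Agent.P117.eLpNorm_two, h3]
    norm_num
  exact ⟨(∫⁻ x : E3, ‖KS x‖ₑ ^ 2).toReal, ENNReal.toReal_nonneg, (ENNReal.ofReal_toReal h).ge⟩

/-- scaled kernel -/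
noncomputable def Kk (κ : ℝ) (η : E3) : ℂ := (((κ ^ 3)⁻¹ : ℝ) : ℂ) * KS (κ⁻¹ • η)

theorem continuous_Kk (κ : ℝ) : Continuous (Kk κ) := by
  unfold Kk
  have := KS.continuous
  have h2 : Continuous (fun η : E3 => KS (κ⁻¹ • η)) := this.comp (by fun_prop)
  fun_prop

theorem Kk_supp {κ : ℝ} (hκ : 0 < κ) {η : E3} (h : Kk κ η ≠ 0) : ‖η‖ ≤ κ := by
  have h1 : K0 (κ⁻¹ • η) ≠ 0 := by
    intro h0
    apply h
    unfold Kk
    rw [KS_apply, h0, mul_zero]
  have h2 := K0_supp h1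
  rw [norm_smul, norm_inv, Real.norm_of_nonneg hκ.le, inv_mul_le_iff₀ hκ, mul_one] at h2
  exact h2

theorem Kk_bdd (κ : ℝ) : ∃ C : ℝ, ∀ η, ‖Kk κ η‖ ≤ C := by
  obtain ⟨C, hC⟩ := KS.decay 0 0
  refine ⟨|(κ ^ 3)⁻¹| * C, fun η => ?_⟩
  have := hC.2 (κ⁻¹ • η)
  simp only [pow_zero, one_mul, norm_iteratedFDeriv_zero] at this
  unfold Kk
  rw [norm_mul, Complex.norm_real, Real.norm_eq_abs]
  gcongr

theorem integrable_Kk {κ : ℝ} (hκ : 0 < κ) : Integrable (Kk κ) := by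
  unfold Kk
  exact (KS.integrable.comp_smul (inv_ne_zero hκ.ne')).const_mul _

theorem lintegral_Kk_sq {κ : ℝ} (hκ : 0 < κ) :
    ∫⁻ η, ‖Kk κ η‖ₑ ^ 2 = ENNReal.ofReal ((κ ^ 3)⁻¹) * ∫⁻ x : E3, ‖KS x‖ₑ ^ 2 := by
  have hm : Measurable (fun x : E3 => ‖KS x‖ₑ ^ 2) := KS.continuous.measurable.enorm.pow_const _
  have h := lintegral_smul3 (R := κ⁻¹) (by positivity) hm
  have e : ∀ η, ‖Kk κ η‖ₑ ^ 2 = ENNReal.ofReal ((κ ^ 3)⁻¹ ^ 2) * ‖KS (κ⁻¹ • η)‖ₑ ^ 2 := by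
    intro η
    unfold Kk
    rw [enorm_mul, mul_pow]
    congr 1
    rw [← ofReal_norm, Complex.norm_real, Real.norm_of_nonneg (by positivity),
      ENNReal.ofReal_pow (by positivity)]
  simp_rw [e]
  have hm' : Measurable (fun x : E3 => ‖KS (κ⁻¹ • x)‖ₑ ^ 2) := hm.comp (by fun_prop)
  rw [lintegral_const_mul _ hm', h, ← mul_assoc, ← ENNReal.ofReal_mul (by positivity)]
  congr 2
  field_simp

theorem inv_Kk {κ : ℝ} (hκ : 0 < κ) (x : E3) : 𝓕⁻ (Kk κ) x = Psi (κ • x) := by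
  rw [inv_eq, Psi_eq, inv_eq]
  have h := Measure.integral_comp_smul (volume : Measure E3)
    (fun v : E3 => ec (inner ℝ v (κ • x)) * KS v) κ⁻¹
  have e : ∀ v : E3, ec (inner ℝ v x) * Kk κ v =
      (((κ ^ 3)⁻¹ : ℝ) : ℂ) * (ec (inner ℝ (κ⁻¹ • v) (κ • x)) * KS (κ⁻¹ • v)) := by
    intro v
    unfold Kk
    rw [inner_smul_left, inner_smul_right]
    simp only [conj_trivial]
    rw [← mul_assoc κ⁻¹ κ, inv_mul_cancel₀ hκ.ne', one_mul]
    ring
  simp_rw [e]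
  rw [integral_const_mul, h, finrank_euclideanSpace_fin, abs_of_pos (by positivity), Complex.real_smul,
    ← mul_assoc, ← Complex.ofReal_mul]
  have : (κ ^ 3)⁻¹ * (κ⁻¹ ^ 3)⁻¹ = 1 := by field_simp
  rw [this]
  simp

/-- modulated kernel -/
noncomputable def ky (κ : ℝ) (y η : E3) : ℂ := Kk κ η * ec (-(inner ℝ η y))

theorem continuous_ky (κ : ℝ) (y : E3) : Continuous (ky κ y) := by
  unfold ky
  have := continuous_Kk κ
  have := continuous_ec
  fun_prop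

theorem norm_ky (κ : ℝ) (y η : E3) : ‖ky κ y η‖ = ‖Kk κ η‖ := by
  unfold ky; rw [norm_mul, norm_ec, mul_one]

theorem integrable_ky {κ : ℝ} (hκ : 0 < κ) (y : E3) : Integrable (ky κ y) := by
  refine (integrable_Kk hκ).norm.mono' (continuous_ky κ y).aestronglyMeasurable ?_
  filter_upwards with η
  rw [norm_ky]

theorem inv_ky {κ : ℝ} (hκ : 0 < κ) (y z : E3) : 𝓕⁻ (ky κ y) z = Psi (κ • (z - y)) := by
  rw [← inv_Kk hκ, inv_eq, inv_eq]
  congr 1
  ext v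
  unfold ky
  rw [inner_sub_right, sub_eq_add_neg, ec_add]
  ring

/-- the auxiliary function of two variables -/
noncomputable def Fa (κ : ℝ) (g : E3 → ℂ) (ζ y : E3) : ℂ :=
  𝓕⁻ (fun t => g t * Kk κ (ζ - t)) y

/-- the smeared function -/
noncomputable def ga (κ : ℝ) (g : E3 → ℂ) (y ζ : E3) : ℂ := ∫ t, g t * ky κ y (ζ - t)

theorem ga_eq (κ : ℝ) (g : E3 → ℂ) (y ζ : E3) : ga κ g y ζ = ec (-(inner ℝ ζ y)) * Fa κ g ζ y := by
  unfold ga Fa
  rw [inv_eq, ← integral_const_mul]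
  congr 1
  ext t
  unfold ky
  rw [inner_sub_left, show -(inner ℝ ζ y - inner ℝ t y : ℝ) = -(inner ℝ ζ y) + inner ℝ t y by ring, ec_add]
  ring

theorem enorm_ga (κ : ℝ) (g : E3 → ℂ) (y ζ : E3) : ‖ga κ g y ζ‖ₑ = ‖Fa κ g ζ y‖ₑ := by
  rw [ga_eq, enorm_mul, enorm_ec, one_mul]

theorem inv_ga {κ : ℝ} (hκ : 0 < κ) {g : E3 → ℂ} (hg : Integrable g) (y z : E3) :
    𝓕⁻ (ga κ g y) z = Psi (κ • (z - y)) * 𝓕⁻ g z := by
  rw [← inv_ky hκ, mul_comm, fourierInv_mul_conv hg (integrable_ky hκ y)]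
  rfl

theorem ga_supp {κ : ℝ} (hκ : 0 < κ) {g : E3 → ℂ} {y ζ : E3} (h : ga κ g y ζ ≠ 0) :
    ∃ t, g t ≠ 0 ∧ ‖ζ - t‖ ≤ κ := by
  by_contra hcon
  push Not at hcon
  apply h
  unfold ga
  rw [integral_eq_zero_of_ae]
  filter_upwards with t
  by_cases ht : g t = 0
  · simp [ht]
  · have := hcon t ht
    have h2 : Kk κ (ζ - t) = 0 := by
      by_contra h3
      exact absurd (Kk_supp hκ h3) (not_le.2 this)
    unfold ky
    simp [h2]

theorem measurable_ga {κ : ℝ} {g : E3 → ℂ} (hg : Measurable g) (y : E3) : Measurable (ga κ g y) := by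
  unfold ga
  have h : Measurable (fun p : E3 × E3 => g p.2 * ky κ y (p.1 - p.2)) := by
    have := (continuous_ky κ y).measurable
    fun_prop
  exact (h.stronglyMeasurable.integral_prod_right').measurable

theorem ga_bdd {κ : ℝ} {g : E3 → ℂ} (hg : Integrable g) (y : E3) : ∃ C, ∀ ζ, ‖ga κ g y ζ‖ ≤ C := by
  obtain ⟨C, hC⟩ := Kk_bdd κ
  refine ⟨C * ∫ t, ‖g t‖, fun ζ => ?_⟩
  unfold ga
  calc _ ≤ ∫ t, ‖g t * ky κ y (ζ - t)‖ := norm_integral_le_integral_norm _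
    _ ≤ ∫ t, C * ‖g t‖ := by
        apply integral_mono_of_nonneg (Filter.Eventually.of_forall fun _ => norm_nonneg _)
          (hg.norm.const_mul _)
        filter_upwards with t
        rw [norm_mul, norm_ky, mul_comm]
        gcongr
        exact hC _
    _ = _ := integral_const_mul _ _

theorem measurable_Fa (κ : ℝ) {g : E3 → ℂ} (hg : Measurable g) :
    Measurable (fun p : E3 × E3 => Fa κ g p.1 p.2) := by
  unfold Fa
  simp_rw [inv_eq]
  have h : Measurable (fun p : (E3 × E3) × E3 => ec (inner ℝ p.2 p.1.2) * (g p.2 * Kk κ (p.1.1 - p.2))) := by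
    have := (continuous_Kk κ).measurable
    have := continuous_ec.measurable
    fun_prop
  exact (h.stronglyMeasurable.integral_prod_right').measurable

/-- local L2 mass -/
noncomputable def Ha (κ : ℝ) (g : E3 → ℂ) (y : E3) : ℝ≥0∞ := ∫⁻ ζ, ‖Fa κ g ζ y‖ₑ ^ 2

theorem measurable_Ha (κ : ℝ) {g : E3 → ℂ} (hg : Measurable g) : Measurable (Ha κ g) := by
  unfold Ha
  have h := (measurable_Fa κ hg).comp (measurable_swap (α := E3) (β := E3))
  have h2 : Measurable (fun p : E3 × E3 => ‖Fa κ g p.2 p.1‖ₑ ^ 2) := h.enorm.pow_const _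
  exact h2.lintegral_prod_right'

theorem integrable_piece {κ : ℝ} {g : E3 → ℂ} (hg : Integrable g) (ζ : E3) :
    Integrable (fun t => g t * Kk κ (ζ - t)) := by
  obtain ⟨C, hC⟩ := Kk_bdd κ
  apply hg.mul_bdd (c := C)
  · exact ((continuous_Kk κ).comp (by fun_prop)).aestronglyMeasurable
  · filter_upwards with t
    exact hC _

theorem lintegral_sq_inv_le {f : E3 → ℂ} (hf : Integrable f) (hfm : Measurable f) :
    ∫⁻ ξ, ‖𝓕⁻ f ξ‖ₑ ^ 2 ≤ ∫⁻ x, ‖f x‖ₑ ^ 2 := by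
  have h1 := lintegral_sq_fourier_le (hf.comp_neg) (hfm.comp measurable_neg)
  rw [← Real.fourierInv_eq_fourier_comp_neg] at h1
  refine h1.trans (le_of_eq ?_)
  exact lintegral_neg_eq_self (fun x => ‖f x‖ₑ ^ 2)

theorem lintegral_Ha_le {κ : ℝ} (hκ : 0 < κ) {g : E3 → ℂ} (hg : Integrable g) (hgm : Measurable g) :
    ∫⁻ y, Ha κ g y ≤ ENNReal.ofReal ((κ ^ 3)⁻¹) * (∫⁻ x : E3, ‖KS x‖ₑ ^ 2) * ∫⁻ t, ‖g t‖ₑ ^ 2 := by
  have hK := (continuous_Kk κ).measurable
  unfold Ha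
  rw [lintegral_lintegral_swap]
  · calc ∫⁻ ζ, ∫⁻ y, ‖Fa κ g ζ y‖ₑ ^ 2 ≤ ∫⁻ ζ, ∫⁻ t, ‖g t * Kk κ (ζ - t)‖ₑ ^ 2 := by
          refine lintegral_mono fun ζ => ?_
          exact lintegral_sq_inv_le (integrable_piece hg ζ) (by fun_prop)
      _ = ∫⁻ t, ∫⁻ ζ, ‖g t * Kk κ (ζ - t)‖ₑ ^ 2 := by
          rw [lintegral_lintegral_swap]
          have : Measurable (fun p : E3 × E3 => ‖g p.2 * Kk κ (p.1 - p.2)‖ₑ ^ 2) := by fun_prop
          exact this.aemeasurable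
      _ = ∫⁻ t, ‖g t‖ₑ ^ 2 * ∫⁻ η, ‖Kk κ η‖ₑ ^ 2 := by
          refine lintegral_congr fun t => ?_
          have e : ∀ ζ, ‖g t * Kk κ (ζ - t)‖ₑ ^ 2 = ‖g t‖ₑ ^ 2 * ‖Kk κ (ζ - t)‖ₑ ^ 2 := by
            intro ζ; rw [enorm_mul, mul_pow]
          simp_rw [e]
          rw [lintegral_const_mul _ (by fun_prop), lintegral_sub_right_eq_self (fun ζ => ‖Kk κ ζ‖ₑ ^ 2) t]
      _ = _ := by
          rw [lintegral_mul_const _ (hgm.enorm.pow_const _), lintegral_Kk_sq hκ]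
          ring
  · have h := (measurable_Fa κ hgm).comp (measurable_swap (α := E3) (β := E3))
    have h2 : Measurable (fun p : E3 × E3 => ‖Fa κ g p.2 p.1‖ₑ ^ 2) := h.enorm.pow_const _
    exact h2.aemeasurable

/-- reproducing formula -/
theorem repro3 {L₀ : ℝ} (hL : 0 < L₀) (j : ℤ) (n : E3) {h : E3 → ℂ} (hi : Integrable h)
    (hh : ∀ ζ, h ζ ≠ 0 → |L₀⁻¹ * inner ℝ ζ n - j| ≤ 1) (y : E3) :
    𝓕⁻ h y = ∫ s : ℝ, pj L₀⁻¹ j s * 𝓕⁻ h (y - s • n) := by
  have hN : 0 < L₀⁻¹ := by positivity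
  simp_rw [inv_eq]
  have h1 : ∀ s : ℝ, pj L₀⁻¹ j s * ∫ ξ, ec (inner ℝ ξ (y - s • n)) * h ξ =
      ∫ ξ, (ec (inner ℝ ξ y) * h ξ) * (pj L₀⁻¹ j s * cexp (((-2 * Real.pi * s * inner ℝ ξ n : ℝ) : ℂ) * I)) := by
    intro s
    rw [← integral_const_mul]
    congr 1
    ext ξ
    have : ec (inner ℝ ξ (y - s • n)) =
      ec (inner ℝ ξ y) * cexp (((-2 * Real.pi * s * inner ℝ ξ n : ℝ) : ℂ) * I) := by
      unfold ec
      rw [← Complex.exp_add]
      congr 1
      rw [inner_sub_right, inner_smul_right]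
      push_cast; ring
    rw [this]; ring
  simp_rw [h1]
  rw [integral_integral_swap]
  · congr 1
    ext ξ
    rw [integral_const_mul, integral_pj hN]
    by_cases h0 : h ξ = 0
    · simp [h0]
    · rw [eta1_one (hh ξ h0), mul_one]
  · have hI : Integrable (fun z : ℝ × E3 => pj L₀⁻¹ j z.1 * h z.2) (volume.prod volume) :=
      (integrable_pj hN j).mul_prod hi
    refine hI.mono ?_ ?_
    · have c1 := continuous_pj L₀⁻¹ j
      have c3 := continuous_ec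
      have hA : AEStronglyMeasurable (fun z : ℝ × E3 => h z.2) (volume.prod volume) :=
        hi.aestronglyMeasurable.comp_snd
      have hB : Continuous (fun z : ℝ × E3 => ec (inner ℝ z.2 y)) := by fun_prop
      have hC : Continuous (fun z : ℝ × E3 =>
        (pj L₀⁻¹ j z.1 * cexp (((-2 * Real.pi * z.1 * inner ℝ z.2 n : ℝ) : ℂ) * I))) := by fun_prop
      exact (hB.aestronglyMeasurable.mul hA).mul hC.aestronglyMeasurable
    · filter_upwards with z
      simp only [Function.uncurry, norm_mul, Complex.norm_exp_ofReal_mul_I, norm_ec, one_mul, mul_one]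
      rw [mul_comm]

theorem cs_kernel {k f : ℝ → ℝ≥0∞} (hk : Measurable k) (hf : Measurable f) :
    (∫⁻ s, k s * f s) ^ 2 ≤ (∫⁻ s, k s) * ∫⁻ s, k s * f s ^ 2 := by
  have h := lintegral_sqrt_mul_le (volume : Measure ℝ) hk (hk.mul (hf.pow_const 2))
  have e : ∀ s, k s ^ (1/2 : ℝ) * (k s * f s ^ 2) ^ (1/2 : ℝ) = k s * f s := by
    intro s
    rw [ENNReal.mul_rpow_of_nonneg _ _ (by norm_num), ← mul_assoc, half_mul_half,
      ← ENNReal.rpow_natCast (f s) 2, ← ENNReal.rpow_mul]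
    norm_num
  simp only [Pi.mul_apply, e] at h
  calc (∫⁻ s, k s * f s) ^ 2 ≤ ((∫⁻ s, k s) ^ (1/2 : ℝ) * (∫⁻ s, k s * f s ^ 2) ^ (1/2 : ℝ)) ^ 2 := by
        gcongr
    _ = _ := by rw [mul_pow, sq_half, sq_half]

/-- local constancy of the local mass, with absolute constant -/
theorem Ha_local : ∃ M : ℝ, 0 ≤ M ∧ ∀ (κ L₀ : ℝ) (_ : 0 < κ) (_ : 0 < L₀) (n : E3) (g : E3 → ℂ)
    (_ : Measurable g) (_ : Integrable g)
    (_ : ∀ t t', g t ≠ 0 → g t' ≠ 0 → ‖t - t'‖ ≤ 2 * κ → |inner ℝ t n - inner ℝ t' n| ≤ L₀ / 2)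
    (y : E3), Ha κ g y ≤ ∫⁻ s, kap M L₀ s * Ha κ g (y - s • n) := by
  obtain ⟨K, hK⟩ := rho_bound
  have hK0 : 0 ≤ K := by
    have := (norm_nonneg _).trans (hK 0)
    simpa using this
  refine ⟨K * Real.pi * K, by positivity, ?_⟩
  intro κ L₀ hκ hL n g hgm hgi hg y
  -- pointwise
  have key : ∀ ζ y, ‖Fa κ g ζ y‖ₑ ^ 2 ≤ ENNReal.ofReal (K * Real.pi) *
      ∫⁻ s, kap K L₀ s * ‖Fa κ g ζ (y - s • n)‖ₑ ^ 2 := by
    intro ζ y
    -- choose j
    have hj : ∃ j : ℤ, ∀ t, g t * Kk κ (ζ - t) ≠ 0 → |L₀⁻¹ * inner ℝ t n - j| ≤ 1 := by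
      by_cases hne : ∃ t, g t * Kk κ (ζ - t) ≠ 0
      · obtain ⟨t₀, ht₀⟩ := hne
        refine ⟨round (L₀⁻¹ * inner ℝ t₀ n), fun t ht => ?_⟩
        have a1 := Kk_supp hκ (right_ne_zero_of_mul ht₀)
        have a2 := Kk_supp hκ (right_ne_zero_of_mul ht)
        have a3 : ‖t - t₀‖ ≤ 2 * κ := by
          calc ‖t - t₀‖ = ‖(ζ - t₀) - (ζ - t)‖ := by congr 1; abel
            _ ≤ ‖ζ - t₀‖ + ‖ζ - t‖ := norm_sub_le _ _
            _ ≤ 2 * κ := by linarith
        have a4 := hg t t₀ (left_ne_zero_of_mul ht) (left_ne_zero_of_mul ht₀) a3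
        have a5 := abs_sub_round (L₀⁻¹ * inner ℝ t₀ n)
        have a6 : |L₀⁻¹ * inner ℝ t n - L₀⁻¹ * inner ℝ t₀ n| ≤ 1/2 := by
          rw [← mul_sub, abs_mul, abs_of_pos (by positivity : 0 < L₀⁻¹)]
          calc L₀⁻¹ * |inner ℝ t n - inner ℝ t₀ n| ≤ L₀⁻¹ * (L₀ / 2) := by gcongr
            _ = 1/2 := by field_simp
        calc |L₀⁻¹ * inner ℝ t n - (round (L₀⁻¹ * inner ℝ t₀ n) : ℤ)| ≤
            |L₀⁻¹ * inner ℝ t n - L₀⁻¹ * inner ℝ t₀ n| +
              |L₀⁻¹ * inner ℝ t₀ n - (round (L₀⁻¹ * inner ℝ t₀ n) : ℤ)| := abs_sub_le _ _ _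
          _ ≤ 1 := by linarith
      · push Not at hne
        exact ⟨0, fun t ht => absurd (hne t) ht⟩
    obtain ⟨j, hj⟩ := hj
    have hrep := repro3 hL j n (integrable_piece hgi ζ) hj
    have hkb : ∀ s, ‖pj L₀⁻¹ j s‖ₑ ≤ kap K L₀ s := by
      intro s
      rw [← ofReal_norm, norm_pj (by positivity)]
      unfold kap
      apply ENNReal.ofReal_le_ofReal
      rw [inv_inv]
      have := hK (s / L₀⁻¹)
      calc L₀ * ‖rho (s / L₀⁻¹)‖ ≤ L₀ * (K * (1 + (s / L₀⁻¹) ^ 2)⁻¹) := by gcongr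
        _ = _ := by rw [div_inv_eq_mul, mul_comm s L₀]; ring
    have hmF : Measurable (fun s : ℝ => ‖Fa κ g ζ (y - s • n)‖ₑ) := by
      have : Measurable (fun s : ℝ => ((ζ, y - s • n) : E3 × E3)) := by fun_prop
      exact ((measurable_Fa κ hgm).comp this).enorm
    calc ‖Fa κ g ζ y‖ₑ ^ 2 ≤ (∫⁻ s, kap K L₀ s * ‖Fa κ g ζ (y - s • n)‖ₑ) ^ 2 := by
          gcongr
          unfold Fa
          rw [hrep y]
          refine (enorm_integral_le_lintegral_enorm _).trans ?_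
          refine lintegral_mono fun s => ?_
          rw [enorm_mul]
          gcongr
          exact hkb s
      _ ≤ (∫⁻ s, kap K L₀ s) * ∫⁻ s, kap K L₀ s * ‖Fa κ g ζ (y - s • n)‖ₑ ^ 2 :=
          cs_kernel (measurable_kap _ _) hmF
      _ = _ := by rw [lintegral_kap hK0 hL]
  calc Ha κ g y ≤ ∫⁻ ζ, ENNReal.ofReal (K * Real.pi) *
        ∫⁻ s, kap K L₀ s * ‖Fa κ g ζ (y - s • n)‖ₑ ^ 2 := lintegral_mono fun ζ => key ζ y
    _ = ENNReal.ofReal (K * Real.pi) * ∫⁻ s, kap K L₀ s * Ha κ g (y - s • n) := by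
        have hm : Measurable (fun p : E3 × ℝ => kap K L₀ p.2 * ‖Fa κ g p.1 (y - p.2 • n)‖ₑ ^ 2) := by
          have h1 : Measurable (fun p : E3 × ℝ => ((p.1, y - p.2 • n) : E3 × E3)) := by fun_prop
          exact ((measurable_kap _ _).comp measurable_snd).mul
            (((measurable_Fa κ hgm).comp h1).enorm.pow_const _)
        rw [lintegral_const_mul _ hm.lintegral_prod_right', lintegral_lintegral_swap hm.aemeasurable]
        congr 1
        refine lintegral_congr fun s => ?_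
        simp only
        rw [lintegral_const_mul]
        · rfl
        · have h1 : Measurable (fun ζ : E3 => ((ζ, y - s • n) : E3 × E3)) := by fun_prop
          exact ((measurable_Fa κ hgm).comp h1).enorm.pow_const _
    _ = _ := by
        rw [← lintegral_const_mul' _ _ ENNReal.ofReal_ne_top]
        refine lintegral_congr fun s => ?_
        rw [← mul_assoc]
        congr 1
        unfold kap
        rw [← ENNReal.ofReal_mul (by positivity)]
        congr 1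
        ring

end Vale.Agent.P106.Tri
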