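import Mathlib

/-! # Continuous Loomis–Whitney inequality for locally constant functions -/

open MeasureTheory Set
open scoped ENNReal NNReal

set_option linter.all false

namespace Vale.Agent.P106.Tri

/-- Cauchy-Schwarz for square roots. -/
theorem lintegral_sqrt_mul_le {α : Type*} [MeasurableSpace α] (μ : Measure α) {f g : α → ℝ≥0∞}
    (hf : Measurable f) (hg : Measurable g) :
    ∫⁻ a, f a ^ (1/2 : ℝ) * g a ^ (1/2 : ℝ) ∂μ ≤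
      (∫⁻ a, f a ∂μ) ^ (1/2 : ℝ) * (∫⁻ a, g a ∂μ) ^ (1/2 : ℝ) := by
  have h := ENNReal.lintegral_mul_le_Lp_mul_Lq μ (p := 2) (q := 2)
    (Real.HolderConjugate.two_two) (f := fun a => f a ^ (1/2 : ℝ)) (g := fun a => g a ^ (1/2 : ℝ))
    (hf.pow_const _).aemeasurable (hg.pow_const _).aemeasurable
  simp only [Pi.mul_apply] at h
  refine h.trans (le_of_eq ?_)
  simp only [← ENNReal.rpow_mul]
  norm_num

theorem sq_half (x : ℝ≥0∞) : (x ^ (1/2 : ℝ)) ^ 2 = x := by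
  rw [← ENNReal.rpow_natCast, ← ENNReal.rpow_mul]; norm_num

theorem half_mul_half (x : ℝ≥0∞) : x ^ (1/2 : ℝ) * x ^ (1/2 : ℝ) = x := by
  rw [← sq, sq_half]

/-- Loomis–Whitney in three dimensions, in square root form. -/
theorem loomis_whitney {f₁ f₂ f₃ : ℝ × ℝ → ℝ≥0∞} (h₁ : Measurable f₁) (h₂ : Measurable f₂)
    (h₃ : Measurable f₃) :
    ∫⁻ a : ℝ, ∫⁻ b : ℝ, ∫⁻ c : ℝ,
        f₁ (b, c) ^ (1/2 : ℝ) * f₂ (a, c) ^ (1/2 : ℝ) * f₃ (a, b) ^ (1/2 : ℝ) ≤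
      (∫⁻ p, f₁ p) ^ (1/2 : ℝ) * (∫⁻ p, f₂ p) ^ (1/2 : ℝ) * (∫⁻ p, f₃ p) ^ (1/2 : ℝ) := by
  have m1 : ∀ b, Measurable fun c => f₁ (b, c) := fun b => h₁.comp measurable_prodMk_left
  have m2 : ∀ a, Measurable fun c => f₂ (a, c) := fun b => h₂.comp measurable_prodMk_left
  have M1 : Measurable fun b : ℝ => ∫⁻ c : ℝ, f₁ (b, c) := h₁.lintegral_prod_right'
  have M2 : Measurable fun b : ℝ => ∫⁻ c : ℝ, f₂ (b, c) := h₂.lintegral_prod_right'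
  have i1 : ∫⁻ p, f₁ p = ∫⁻ b : ℝ, ∫⁻ c : ℝ, f₁ (b, c) := by
    rw [Measure.volume_eq_prod, lintegral_prod _ h₁.aemeasurable]
  have i2 : ∫⁻ p, f₂ p = ∫⁻ b : ℝ, ∫⁻ c : ℝ, f₂ (b, c) := by
    rw [Measure.volume_eq_prod, lintegral_prod _ h₂.aemeasurable]
  calc ∫⁻ a : ℝ, ∫⁻ b : ℝ, ∫⁻ c : ℝ,
        f₁ (b, c) ^ (1/2 : ℝ) * f₂ (a, c) ^ (1/2 : ℝ) * f₃ (a, b) ^ (1/2 : ℝ)
      = ∫⁻ a : ℝ, ∫⁻ b : ℝ, (∫⁻ c : ℝ, f₁ (b, c) ^ (1/2 : ℝ) * f₂ (a, c) ^ (1/2 : ℝ)) *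
          f₃ (a, b) ^ (1/2 : ℝ) := by
        refine lintegral_congr fun a => lintegral_congr fun b => ?_
        rw [lintegral_mul_const]
        exact ((m1 b).pow_const _).mul ((m2 a).pow_const _)
    _ ≤ ∫⁻ a : ℝ, ∫⁻ b : ℝ, ((∫⁻ c : ℝ, f₁ (b, c)) ^ (1/2 : ℝ) * (∫⁻ c : ℝ, f₂ (a, c)) ^ (1/2 : ℝ)) *
          f₃ (a, b) ^ (1/2 : ℝ) := by
        gcongr with a b
        exact lintegral_sqrt_mul_le _ (m1 b) (m2 a)
    _ = ∫⁻ p : ℝ × ℝ, ((∫⁻ c : ℝ, f₁ (p.2, c)) * (∫⁻ c : ℝ, f₂ (p.1, c))) ^ (1/2 : ℝ) *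
          f₃ p ^ (1/2 : ℝ) := by
        rw [Measure.volume_eq_prod, lintegral_prod]
        · refine lintegral_congr fun a => lintegral_congr fun b => ?_
          rw [ENNReal.mul_rpow_of_nonneg _ _ (by norm_num)]
        · exact ((((M1.comp measurable_snd).mul (M2.comp measurable_fst)).pow_const _).mul
            (h₃.pow_const _)).aemeasurable
    _ ≤ (∫⁻ p : ℝ × ℝ, (∫⁻ c : ℝ, f₁ (p.2, c)) * (∫⁻ c : ℝ, f₂ (p.1, c))) ^ (1/2 : ℝ) *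
          (∫⁻ p, f₃ p) ^ (1/2 : ℝ) :=
        lintegral_sqrt_mul_le _ ((M1.comp measurable_snd).mul (M2.comp measurable_fst)) h₃
    _ = _ := by
        congr 1
        have : ∫⁻ p : ℝ × ℝ, (∫⁻ c : ℝ, f₁ (p.2, c)) * (∫⁻ c : ℝ, f₂ (p.1, c)) =
            (∫⁻ p, f₁ p) * ∫⁻ p, f₂ p := by
          rw [i1, i2, Measure.volume_eq_prod, lintegral_prod]
          · simp only
            have : ∀ a : ℝ, ∫⁻ b : ℝ, (∫⁻ c : ℝ, f₁ (b, c)) * (∫⁻ c : ℝ, f₂ (a, c)) =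
                (∫⁻ b : ℝ, ∫⁻ c : ℝ, f₁ (b, c)) * (∫⁻ c : ℝ, f₂ (a, c)) := by
              intro a
              rw [lintegral_mul_const _ M1]
            simp_rw [this]
            rw [lintegral_const_mul _ M2]
          · exact ((M1.comp measurable_snd).mul (M2.comp measurable_fst)).aemeasurable
        rw [this, ENNReal.mul_rpow_of_nonneg _ _ (by norm_num)]

end Vale.Agent.P106.Tri
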