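import Vale.Agent.P106.Tri.LW

/-! # Loomis–Whitney for functions that are locally constant along the axes -/

open MeasureTheory Set
open scoped ENNReal NNReal

set_option linter.all false

namespace Vale.Agent.P106.Tri

theorem lint3 {F : ℝ × ℝ × ℝ → ℝ≥0∞} (hF : Measurable F) :
    ∫⁻ p, F p = ∫⁻ a : ℝ, ∫⁻ b : ℝ, ∫⁻ c : ℝ, F (a, b, c) := by
  rw [Measure.volume_eq_prod, lintegral_prod _ hF.aemeasurable]
  refine lintegral_congr fun a => ?_
  rw [Measure.volume_eq_prod, lintegral_prod]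
  exact (hF.comp measurable_prodMk_left).aemeasurable

/-- swap of the first two variables -/
def sw (p : ℝ × ℝ × ℝ) : ℝ × ℝ × ℝ := (p.2.1, p.1, p.2.2)
/-- (a,b,c) ↦ (c,a,b) -/
def rt (p : ℝ × ℝ × ℝ) : ℝ × ℝ × ℝ := (p.2.2, p.1, p.2.1)
/-- (a,b,c) ↦ (b,c,a) -/
def lt' (p : ℝ × ℝ × ℝ) : ℝ × ℝ × ℝ := (p.2.1, p.2.2, p.1)

theorem measurable_sw : Measurable sw := by unfold sw; fun_prop
theorem measurable_rt : Measurable rt := by unfold rt; fun_prop
theorem measurable_lt' : Measurable lt' := by unfold lt'; fun_prop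

theorem lintegral_sw {F : ℝ × ℝ × ℝ → ℝ≥0∞} (hF : Measurable F) :
    ∫⁻ p, F (sw p) = ∫⁻ p, F p := by
  rw [lint3 (F := fun p => F (sw p)) (hF.comp measurable_sw), lint3 hF]
  unfold sw
  simp only
  rw [lintegral_lintegral_swap]
  have : Measurable (fun q : (ℝ × ℝ) × ℝ => F (q.1.2, q.1.1, q.2)) := hF.comp (by fun_prop)
  exact this.lintegral_prod_right'.aemeasurable

theorem lintegral_lt' {F : ℝ × ℝ × ℝ → ℝ≥0∞} (hF : Measurable F) :
    ∫⁻ p, F (lt' p) = ∫⁻ p, F p := by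
  rw [lint3 (F := fun p => F (lt' p)) (hF.comp measurable_lt'), lint3 hF]
  unfold lt'
  simp only
  rw [lintegral_lintegral_swap]
  · refine lintegral_congr fun b => ?_
    rw [lintegral_lintegral_swap]
    exact (hF.comp (by fun_prop)).aemeasurable
  · have : Measurable (fun q : (ℝ × ℝ) × ℝ => F (q.1.2, q.2, q.1.1)) := hF.comp (by fun_prop)
    exact this.lintegral_prod_right'.aemeasurable

theorem lintegral_rt {F : ℝ × ℝ × ℝ → ℝ≥0∞} (hF : Measurable F) :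
    ∫⁻ p, F (rt p) = ∫⁻ p, F p := by
  rw [← lintegral_lt' (F := fun p => F (rt p)) (hF.comp measurable_rt)]
  rfl

/-- indicator of the interval of radius r -/
noncomputable def box (r x : ℝ) : ℝ≥0∞ := if |x| ≤ r then 1 else 0

theorem measurable_box (r : ℝ) : Measurable (box r) := by
  unfold box
  exact Measurable.ite (measurableSet_le (by fun_prop) measurable_const) measurable_const
    measurable_const

theorem mbl (r a : ℝ) : Measurable (fun x => box r (a - x)) :=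
  (measurable_box r).comp (by fun_prop)

theorem mbr (r a : ℝ) : Measurable (fun x => box r (x - a)) :=
  (measurable_box r).comp (by fun_prop)

theorem box_le_one (r x : ℝ) : box r x ≤ 1 := by unfold box; split_ifs <;> simp

theorem box_half (r x : ℝ) : box r x ^ (1/2 : ℝ) = box r x := by
  unfold box; split_ifs
  · simp
  · simp

theorem box_mul_self (r x : ℝ) : box r x * box r x = box r x := by
  unfold box; split_ifs <;> simp

theorem lintegral_box {r : ℝ} (hr : 0 ≤ r) (a : ℝ) : ∫⁻ x, box r (a - x) = ENNReal.ofReal (2 * r) := by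
  have : ∀ x, box r (a - x) = (Icc (a - r) (a + r)).indicator 1 x := by
    intro x
    unfold box
    rw [indicator_apply]
    congr 1
    rw [eq_iff_iff, abs_le, mem_Icc]
    constructor <;> rintro ⟨h1, h2⟩ <;> constructor <;> linarith
  simp_rw [this]
  rw [lintegral_indicator_one measurableSet_Icc, Real.volume_Icc]
  congr 1; ring

theorem lintegral_box' {r : ℝ} (hr : 0 ≤ r) (a : ℝ) : ∫⁻ x, box r (x - a) = ENNReal.ofReal (2 * r) := by
  rw [← lintegral_box hr a]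
  refine lintegral_congr fun x => ?_
  unfold box
  rw [abs_sub_comm]

/-- averaged functions -/
noncomputable def Bf (k : ℝ → ℝ≥0∞) (r : ℝ) (H : ℝ × ℝ × ℝ → ℝ≥0∞) (P : ℝ × ℝ × ℝ) : ℝ≥0∞ :=
  ∫⁻ b : ℝ, ∫⁻ c : ℝ, box r (b - P.2.1) * box r (c - P.2.2) * ∫⁻ s : ℝ, k (P.1 - s) * H (s, b, c)

section
variable {k : ℝ → ℝ≥0∞} (hk : Measurable k) {r : ℝ} {H : ℝ × ℝ × ℝ → ℝ≥0∞} (hH : Measurable H)

include hk hH in
theorem measurable_inner : Measurable (fun q : (ℝ × ℝ × ℝ) =>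
    ∫⁻ s : ℝ, k (q.1 - s) * H (s, q.2.1, q.2.2)) := by
  have : Measurable (fun q : (ℝ × ℝ × ℝ) × ℝ => k (q.1.1 - q.2) * H (q.2, q.1.2.1, q.1.2.2)) :=
    (hk.comp (by fun_prop)).mul (hH.comp (by fun_prop))
  exact this.lintegral_prod_right'

include hk hH in
theorem measurable_Bf : Measurable (Bf k r H) := by
  unfold Bf
  have h1 : Measurable (fun q : ((ℝ × ℝ × ℝ) × ℝ) × ℝ =>
      box r (q.1.2 - q.1.1.2.1) * box r (q.2 - q.1.1.2.2) *
        ∫⁻ s : ℝ, k (q.1.1.1 - s) * H (s, q.1.2, q.2)) := by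
    refine Measurable.mul (((measurable_box r).comp (by fun_prop)).mul
      ((measurable_box r).comp (by fun_prop))) ?_
    exact (measurable_inner hk hH).comp (g := fun q : (ℝ × ℝ × ℝ) => _)
      (f := fun q : ((ℝ × ℝ × ℝ) × ℝ) × ℝ => ((q.1.1.1, q.1.2, q.2) : ℝ × ℝ × ℝ)) (by fun_prop)
  exact (h1.lintegral_prod_right').lintegral_prod_right'

include hk hH in
theorem Bf_le {K : ℝ≥0∞} (hK : ∀ s, k s ≤ K) (P : ℝ × ℝ × ℝ) : Bf k r H P ≤ K * ∫⁻ p, H p := by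
  calc Bf k r H P ≤ ∫⁻ b : ℝ, ∫⁻ c : ℝ, ∫⁻ s : ℝ, K * H (s, b, c) := by
        unfold Bf
        gcongr with b c
        calc _ ≤ 1 * 1 * ∫⁻ s : ℝ, k (P.1 - s) * H (s, b, c) := by
              gcongr <;> exact box_le_one _ _
          _ ≤ _ := by
              rw [one_mul, one_mul]
              gcongr
              exact hK _
    _ = ∫⁻ p, (fun q => K * H q) (rt p) := by
        rw [lint3]
        · rfl
        · exact (hH.comp measurable_rt).const_mul K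
    _ = K * ∫⁻ p, H p := by
        rw [lintegral_rt (hH.const_mul K), lintegral_const_mul _ hH]

include hk hH in
theorem lintegral_Bf (hr : 0 ≤ r) : ∫⁻ P, Bf k r H P =
    ENNReal.ofReal (2 * r) ^ 2 * (∫⁻ s, k s) * ∫⁻ p, H p := by
  rw [lint3 (measurable_Bf hk hH)]
  unfold Bf
  simp only
  have m3 : Measurable (fun q : (ℝ × ℝ × ℝ) => ∫⁻ s : ℝ, k (q.1 - s) * H (s, q.2.1, q.2.2)) :=
    measurable_inner hk hH
  have hb := measurable_box r
  -- integrate in C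
  have e1 : ∀ A B : ℝ, ∫⁻ C : ℝ, ∫⁻ b : ℝ, ∫⁻ c : ℝ, box r (b - B) * box r (c - C) *
      ∫⁻ s : ℝ, k (A - s) * H (s, b, c) =
      ∫⁻ b : ℝ, ∫⁻ c : ℝ, ENNReal.ofReal (2 * r) * box r (b - B) * ∫⁻ s : ℝ, k (A - s) * H (s, b, c) := by
    intro A B
    rw [lintegral_lintegral_swap]
    · refine lintegral_congr fun b => ?_
      rw [lintegral_lintegral_swap]
      · refine lintegral_congr fun c => ?_
        have : ∀ C : ℝ, box r (b - B) * box r (c - C) * ∫⁻ s : ℝ, k (A - s) * H (s, b, c) =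
            box r (c - C) * (box r (b - B) * ∫⁻ s : ℝ, k (A - s) * H (s, b, c)) := by
          intro C; ring
        simp_rw [this]
        rw [lintegral_mul_const _ (mbl r _), lintegral_box hr]
        ring
      · refine Measurable.aemeasurable ?_
        refine Measurable.mul (Measurable.mul (hb.comp (by fun_prop)) (hb.comp (by fun_prop))) ?_
        exact m3.comp (f := fun q : ℝ × ℝ => ((A, b, q.2) : ℝ × ℝ × ℝ)) (by fun_prop)
    · refine Measurable.aemeasurable ?_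
      have : Measurable (fun q : (ℝ × ℝ) × ℝ => box r (q.1.2 - B) * box r (q.2 - q.1.1) *
          ∫⁻ s : ℝ, k (A - s) * H (s, q.1.2, q.2)) := by
        refine Measurable.mul (Measurable.mul (hb.comp (by fun_prop)) (hb.comp (by fun_prop))) ?_
        exact m3.comp (f := fun q : (ℝ × ℝ) × ℝ => ((A, q.1.2, q.2) : ℝ × ℝ × ℝ)) (by fun_prop)
      exact this.lintegral_prod_right'
  simp_rw [e1]
  -- integrate in B
  have e2 : ∀ A : ℝ, ∫⁻ B : ℝ, ∫⁻ b : ℝ, ∫⁻ c : ℝ, ENNReal.ofReal (2 * r) * box r (b - B) *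
      ∫⁻ s : ℝ, k (A - s) * H (s, b, c) =
      ∫⁻ b : ℝ, ∫⁻ c : ℝ, ENNReal.ofReal (2 * r) ^ 2 * ∫⁻ s : ℝ, k (A - s) * H (s, b, c) := by
    intro A
    rw [lintegral_lintegral_swap]
    · refine lintegral_congr fun b => ?_
      rw [lintegral_lintegral_swap]
      · refine lintegral_congr fun c => ?_
        have : ∀ B : ℝ, ENNReal.ofReal (2 * r) * box r (b - B) * ∫⁻ s : ℝ, k (A - s) * H (s, b, c) =
            box r (b - B) * (ENNReal.ofReal (2 * r) * ∫⁻ s : ℝ, k (A - s) * H (s, b, c)) := by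
          intro C; ring
        simp_rw [this]
        rw [lintegral_mul_const _ (mbl r _), lintegral_box hr]
        ring
      · refine Measurable.aemeasurable ?_
        refine Measurable.mul (Measurable.mul measurable_const (hb.comp (by fun_prop))) ?_
        exact m3.comp (f := fun q : ℝ × ℝ => ((A, b, q.2) : ℝ × ℝ × ℝ)) (by fun_prop)
    · refine Measurable.aemeasurable ?_
      have : Measurable (fun q : (ℝ × ℝ) × ℝ => ENNReal.ofReal (2 * r) * box r (q.1.2 - q.1.1) *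
          ∫⁻ s : ℝ, k (A - s) * H (s, q.1.2, q.2)) := by
        refine Measurable.mul (Measurable.mul measurable_const (hb.comp (by fun_prop))) ?_
        exact m3.comp (f := fun q : (ℝ × ℝ) × ℝ => ((A, q.1.2, q.2) : ℝ × ℝ × ℝ)) (by fun_prop)
      exact this.lintegral_prod_right'
  simp_rw [e2]
  -- integrate in A
  have e3 : ∫⁻ A : ℝ, ∫⁻ b : ℝ, ∫⁻ c : ℝ, ENNReal.ofReal (2 * r) ^ 2 *
      ∫⁻ s : ℝ, k (A - s) * H (s, b, c) =
      ∫⁻ b : ℝ, ∫⁻ c : ℝ, ∫⁻ s : ℝ, (ENNReal.ofReal (2 * r) ^ 2 * (∫⁻ s, k s)) * H (s, b, c) := by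
    rw [lintegral_lintegral_swap]
    · refine lintegral_congr fun b => ?_
      rw [lintegral_lintegral_swap]
      · refine lintegral_congr fun c => ?_
        rw [lintegral_const_mul]
        · rw [lintegral_lintegral_swap]
          · have mHs : Measurable (fun s => H (s, b, c)) := hH.comp (by fun_prop)
            have mks : ∀ s : ℝ, Measurable (fun x => k (x - s)) := fun s => hk.comp (by fun_prop)
            rw [lintegral_const_mul _ mHs, mul_assoc]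
            congr 1
            rw [← lintegral_const_mul _ mHs]
            refine lintegral_congr fun s => ?_
            rw [lintegral_mul_const _ (mks s)]
            congr 1
            exact lintegral_sub_right_eq_self k s
          · exact ((hk.comp (by fun_prop)).mul (hH.comp (by fun_prop))).aemeasurable
        · exact m3.comp (f := fun A : ℝ => ((A, b, c) : ℝ × ℝ × ℝ)) (by fun_prop)
      · refine Measurable.aemeasurable ?_
        refine Measurable.mul measurable_const ?_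
        exact m3.comp (f := fun q : ℝ × ℝ => ((q.1, b, q.2) : ℝ × ℝ × ℝ)) (by fun_prop)
    · refine Measurable.aemeasurable ?_
      have : Measurable (fun q : (ℝ × ℝ) × ℝ => ENNReal.ofReal (2 * r) ^ 2 *
          ∫⁻ s : ℝ, k (q.1.1 - s) * H (s, q.1.2, q.2)) := by
        refine Measurable.mul measurable_const ?_
        exact m3.comp (f := fun q : (ℝ × ℝ) × ℝ => ((q.1.1, q.1.2, q.2) : ℝ × ℝ × ℝ)) (by fun_prop)
      exact this.lintegral_prod_right'
  rw [e3]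
  have : ∫⁻ b : ℝ, ∫⁻ c : ℝ, ∫⁻ s : ℝ, (ENNReal.ofReal (2 * r) ^ 2 * (∫⁻ s, k s)) * H (s, b, c) =
      ∫⁻ p, (fun q => (ENNReal.ofReal (2 * r) ^ 2 * (∫⁻ s, k s)) * H q) (rt p) := by
    rw [lint3]
    · rfl
    · exact (hH.comp measurable_rt).const_mul _
  rw [this, lintegral_rt (hH.const_mul _), lintegral_const_mul _ hH]

include hk hH in
theorem lintegral_Bf_pow (hr : 0 ≤ r) {K : ℝ≥0∞} (hK : ∀ s, k s ≤ K) :
    ∫⁻ P, Bf k r H P ^ (3/2 : ℝ) ≤
      K ^ (1/2 : ℝ) * (ENNReal.ofReal (2 * r) ^ 2 * (∫⁻ s, k s)) * (∫⁻ p, H p) ^ (3/2 : ℝ) := by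
  calc ∫⁻ P, Bf k r H P ^ (3/2 : ℝ) ≤ ∫⁻ P, (K * ∫⁻ p, H p) ^ (1/2 : ℝ) * Bf k r H P := by
        gcongr with P
        have : (3/2 : ℝ) = 1/2 + 1 := by norm_num
        rw [this, ENNReal.rpow_add_of_nonneg _ _ (by norm_num) (by norm_num), ENNReal.rpow_one]
        gcongr
        exact Bf_le hk hH hK P
    _ = (K * ∫⁻ p, H p) ^ (1/2 : ℝ) * (ENNReal.ofReal (2 * r) ^ 2 * (∫⁻ s, k s) * ∫⁻ p, H p) := by
        rw [lintegral_const_mul _ (measurable_Bf hk hH), lintegral_Bf hk hH hr]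
    _ = _ := by
        have : (3/2 : ℝ) = 1/2 + 1 := by norm_num
        rw [this, ENNReal.rpow_add_of_nonneg _ _ (by norm_num) (by norm_num), ENNReal.rpow_one,
          ENNReal.mul_rpow_of_nonneg _ _ (by norm_num)]
        ring

end

/-- Loomis–Whitney for functions locally constant along the coordinate directions. -/
theorem lw_local {κ k : ℝ → ℝ≥0∞} (hκ : Measurable κ) (hk : Measurable k) {r : ℝ} (hr : 0 < r)
    (hkk : ∀ s s', |s'| ≤ r → κ (s + s') ≤ k s) {K : ℝ≥0∞} (hK : ∀ s, k s ≤ K)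
    {H₁ H₂ H₃ : ℝ × ℝ × ℝ → ℝ≥0∞} (m₁ : Measurable H₁) (m₂ : Measurable H₂) (m₃ : Measurable H₃)
    (l₁ : ∀ a b c, H₁ (a, b, c) ≤ ∫⁻ s, κ (a - s) * H₁ (s, b, c))
    (l₂ : ∀ a b c, H₂ (a, b, c) ≤ ∫⁻ s, κ (b - s) * H₂ (a, s, c))
    (l₃ : ∀ a b c, H₃ (a, b, c) ≤ ∫⁻ s, κ (c - s) * H₃ (a, b, s)) :
    ENNReal.ofReal (2 * r) * ∫⁻ p, H₁ p ^ (1/2 : ℝ) * H₂ p ^ (1/2 : ℝ) * H₃ p ^ (1/2 : ℝ) ≤
      K ^ (1/2 : ℝ) * (∫⁻ s, k s) *
        ((∫⁻ p, H₁ p) ^ (1/2 : ℝ) * (∫⁻ p, H₂ p) ^ (1/2 : ℝ) * (∫⁻ p, H₃ p) ^ (1/2 : ℝ)) := by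
  have hb := measurable_box r
  -- the permuted functions
  have mH2 : Measurable (H₂ ∘ sw) := m₂.comp measurable_sw
  have mH3 : Measurable (H₃ ∘ lt') := m₃.comp measurable_lt'
  set B1 : ℝ × ℝ × ℝ → ℝ≥0∞ := Bf k r H₁ with hB1
  set B2 : ℝ × ℝ × ℝ → ℝ≥0∞ := fun P => Bf k r (H₂ ∘ sw) (sw P) with hB2
  set B3 : ℝ × ℝ × ℝ → ℝ≥0∞ := fun P => Bf k r (H₃ ∘ lt') (rt P) with hB3
  have mB1 : Measurable B1 := measurable_Bf hk m₁
  have mB2 : Measurable B2 := (measurable_Bf hk mH2).comp measurable_sw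
  have mB3 : Measurable B3 := (measurable_Bf hk mH3).comp measurable_rt
  have mS : Measurable (fun p => H₁ p ^ (1/2 : ℝ) * H₂ p ^ (1/2 : ℝ) * H₃ p ^ (1/2 : ℝ)) :=
    ((m₁.pow_const _).mul (m₂.pow_const _)).mul (m₃.pow_const _)
  -- local inequality
  have hloc : ∀ A B C : ℝ, ∫⁻ a : ℝ, ∫⁻ b : ℝ, ∫⁻ c : ℝ,
      box r (a - A) * box r (b - B) * box r (c - C) *
        (H₁ (a, b, c) ^ (1/2 : ℝ) * H₂ (a, b, c) ^ (1/2 : ℝ) * H₃ (a, b, c) ^ (1/2 : ℝ)) ≤
      B1 (A, B, C) ^ (1/2 : ℝ) * B2 (A, B, C) ^ (1/2 : ℝ) * B3 (A, B, C) ^ (1/2 : ℝ) := by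
    intro A B C
    set f1 : ℝ × ℝ → ℝ≥0∞ := fun q => box r (q.1 - B) * box r (q.2 - C) *
      ∫⁻ s : ℝ, k (A - s) * H₁ (s, q.1, q.2) with hf1
    set f2 : ℝ × ℝ → ℝ≥0∞ := fun q => box r (q.1 - A) * box r (q.2 - C) *
      ∫⁻ s : ℝ, k (B - s) * (H₂ ∘ sw) (s, q.1, q.2) with hf2
    set f3 : ℝ × ℝ → ℝ≥0∞ := fun q => box r (q.1 - A) * box r (q.2 - B) *
      ∫⁻ s : ℝ, k (C - s) * (H₃ ∘ lt') (s, q.1, q.2) with hf3
    have mf : ∀ (X Y Z : ℝ) (H : ℝ × ℝ × ℝ → ℝ≥0∞), Measurable H →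
        Measurable (fun q : ℝ × ℝ => box r (q.1 - Y) * box r (q.2 - Z) *
          ∫⁻ s : ℝ, k (X - s) * H (s, q.1, q.2)) := by
      intro X Y Z H hH
      refine Measurable.mul (Measurable.mul (hb.comp (by fun_prop)) (hb.comp (by fun_prop))) ?_
      exact (measurable_inner hk hH).comp
        (f := fun q : ℝ × ℝ => ((X, q.1, q.2) : ℝ × ℝ × ℝ)) (by fun_prop)
    have key := loomis_whitney (mf A B C H₁ m₁) (mf B A C _ mH2) (mf C A B _ mH3)
    have i1 : ∫⁻ p, f1 p = B1 (A, B, C) := by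
      rw [Measure.volume_eq_prod, lintegral_prod _ (mf A B C H₁ m₁).aemeasurable]
      rfl
    have i2 : ∫⁻ p, f2 p = B2 (A, B, C) := by
      rw [Measure.volume_eq_prod, lintegral_prod _ (mf B A C _ mH2).aemeasurable]
      rfl
    have i3 : ∫⁻ p, f3 p = B3 (A, B, C) := by
      rw [Measure.volume_eq_prod, lintegral_prod _ (mf C A B _ mH3).aemeasurable]
      rfl
    rw [← i1, ← i2, ← i3]
    refine le_trans ?_ key
    refine lintegral_mono fun a => lintegral_mono fun b => lintegral_mono fun c => ?_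
    simp only [Function.comp_apply]
    by_cases ha : |a - A| ≤ r
    swap
    · have : box r (a - A) = 0 := by unfold box; rw [if_neg ha]
      rw [this]; simp
    by_cases hb' : |b - B| ≤ r
    swap
    · have : box r (b - B) = 0 := by unfold box; rw [if_neg hb']
      rw [this]; simp
    by_cases hc : |c - C| ≤ r
    swap
    · have : box r (c - C) = 0 := by unfold box; rw [if_neg hc]
      rw [this]; simp
    have e1 : H₁ (a, b, c) ≤ ∫⁻ s : ℝ, k (A - s) * H₁ (s, b, c) := by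
      refine (l₁ a b c).trans ?_
      gcongr with s
      have := hkk (A - s) (a - A) ha
      rwa [show A - s + (a - A) = a - s by ring] at this
    have e2 : H₂ (a, b, c) ≤ ∫⁻ s : ℝ, k (B - s) * H₂ (a, s, c) := by
      refine (l₂ a b c).trans ?_
      gcongr with s
      have := hkk (B - s) (b - B) hb'
      rwa [show B - s + (b - B) = b - s by ring] at this
    have e3 : H₃ (a, b, c) ≤ ∫⁻ s : ℝ, k (C - s) * H₃ (a, b, s) := by
      refine (l₃ a b c).trans ?_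
      gcongr with s
      have := hkk (C - s) (c - C) hc
      rwa [show C - s + (c - C) = c - s by ring] at this
    have x1 : box r (a - A) = 1 := by unfold box; rw [if_pos ha]
    have x2 : box r (b - B) = 1 := by unfold box; rw [if_pos hb']
    have x3 : box r (c - C) = 1 := by unfold box; rw [if_pos hc]
    simp only [x1, x2, x3, one_mul]
    exact mul_le_mul' (mul_le_mul' (ENNReal.rpow_le_rpow e1 (by norm_num))
      (ENNReal.rpow_le_rpow e2 (by norm_num))) (ENNReal.rpow_le_rpow e3 (by norm_num))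
  -- integrate over the centres
  have main : ENNReal.ofReal (2 * r) ^ 3 *
      ∫⁻ p, H₁ p ^ (1/2 : ℝ) * H₂ p ^ (1/2 : ℝ) * H₃ p ^ (1/2 : ℝ) ≤
      ∫⁻ P, B1 P ^ (1/2 : ℝ) * B2 P ^ (1/2 : ℝ) * B3 P ^ (1/2 : ℝ) := by
    have e : ENNReal.ofReal (2 * r) ^ 3 *
        ∫⁻ p, H₁ p ^ (1/2 : ℝ) * H₂ p ^ (1/2 : ℝ) * H₃ p ^ (1/2 : ℝ) =
        ∫⁻ p : ℝ × ℝ × ℝ, ∫⁻ P : ℝ × ℝ × ℝ, box r (p.1 - P.1) * box r (p.2.1 - P.2.1) *
          box r (p.2.2 - P.2.2) *
          (H₁ p ^ (1/2 : ℝ) * H₂ p ^ (1/2 : ℝ) * H₃ p ^ (1/2 : ℝ)) := by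
      rw [← lintegral_const_mul _ mS]
      refine lintegral_congr fun p => ?_
      rw [lintegral_mul_const]
      · congr 1
        rw [lint3]
        · simp only
          have : ∀ A B : ℝ, ∫⁻ C : ℝ, box r (p.1 - A) * box r (p.2.1 - B) * box r (p.2.2 - C) =
              box r (p.1 - A) * box r (p.2.1 - B) * ENNReal.ofReal (2 * r) := by
            intro A B
            rw [lintegral_const_mul _ (mbl r _), lintegral_box hr.le]
          simp_rw [this]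
          have : ∀ A : ℝ, ∫⁻ B : ℝ, box r (p.1 - A) * box r (p.2.1 - B) * ENNReal.ofReal (2 * r) =
              box r (p.1 - A) * (ENNReal.ofReal (2 * r) * ENNReal.ofReal (2 * r)) := by
            intro A
            simp_rw [mul_assoc]
            rw [lintegral_const_mul]
            · rw [lintegral_mul_const _ (mbl r _), lintegral_box hr.le]
            · exact (mbl r _).mul_const _
          simp_rw [this]
          rw [lintegral_mul_const _ (mbl r _), lintegral_box hr.le]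
          ring
        · exact ((hb.comp (by fun_prop)).mul (hb.comp (by fun_prop))).mul (hb.comp (by fun_prop))
      · exact ((hb.comp (by fun_prop)).mul (hb.comp (by fun_prop))).mul (hb.comp (by fun_prop))
    rw [e, lintegral_lintegral_swap]
    · refine lintegral_mono fun P => ?_
      rw [lint3]
      · exact hloc P.1 P.2.1 P.2.2
      · exact Measurable.mul (((hb.comp (by fun_prop)).mul (hb.comp (by fun_prop))).mul
          (hb.comp (by fun_prop))) mS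
    · refine Measurable.aemeasurable ?_
      refine Measurable.mul (((hb.comp (by fun_prop)).mul (hb.comp (by fun_prop))).mul
          (hb.comp (by fun_prop))) ?_
      exact mS.comp measurable_fst
  -- Hölder
  have hol : ∫⁻ P, B1 P ^ (1/2 : ℝ) * B2 P ^ (1/2 : ℝ) * B3 P ^ (1/2 : ℝ) ≤
      (∫⁻ P, B1 P ^ (3/2 : ℝ)) ^ (1/3 : ℝ) * (∫⁻ P, B2 P ^ (3/2 : ℝ)) ^ (1/3 : ℝ) *
        (∫⁻ P, B3 P ^ (3/2 : ℝ)) ^ (1/3 : ℝ) := by
    have h := ENNReal.lintegral_prod_norm_pow_le (μ := (volume : Measure (ℝ × ℝ × ℝ)))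
      (Finset.univ : Finset (Fin 3)) (f := fun i P => (![B1 P, B2 P, B3 P] i) ^ (3/2 : ℝ))
      (p := fun _ => (1/3 : ℝ)) (by
        intro i _
        fin_cases i
        · exact (mB1.pow_const _).aemeasurable
        · exact (mB2.pow_const _).aemeasurable
        · exact (mB3.pow_const _).aemeasurable) (by simp) (by intro i _; norm_num)
    simp only [Fin.prod_univ_three] at h
    simp only [Matrix.cons_val_zero, Matrix.cons_val_one, Matrix.cons_val_two, Matrix.cons_val,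
      ← ENNReal.rpow_mul] at h
    norm_num at h
    norm_num
    exact h
  have b1 := lintegral_Bf_pow hk m₁ hr.le hK
  have b2 : ∫⁻ P, B2 P ^ (3/2 : ℝ) ≤ K ^ (1/2 : ℝ) * (ENNReal.ofReal (2 * r) ^ 2 * (∫⁻ s, k s)) *
      (∫⁻ p, H₂ p) ^ (3/2 : ℝ) := by
    have h := lintegral_Bf_pow hk mH2 hr.le hK
    have e : ∫⁻ p, (H₂ ∘ sw) p = ∫⁻ p, H₂ p := lintegral_sw m₂
    rw [e, ← lintegral_sw ((measurable_Bf hk mH2).pow_const _)] at h
    exact h
  have b3 : ∫⁻ P, B3 P ^ (3/2 : ℝ) ≤ K ^ (1/2 : ℝ) * (ENNReal.ofReal (2 * r) ^ 2 * (∫⁻ s, k s)) *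
      (∫⁻ p, H₃ p) ^ (3/2 : ℝ) := by
    have h := lintegral_Bf_pow hk mH3 hr.le hK
    have e : ∫⁻ p, (H₃ ∘ lt') p = ∫⁻ p, H₃ p := lintegral_lt' m₃
    rw [e, ← lintegral_rt ((measurable_Bf hk mH3).pow_const _)] at h
    exact h
  set J1 := ∫⁻ p, H₁ p
  set J2 := ∫⁻ p, H₂ p
  set J3 := ∫⁻ p, H₃ p
  set k1 := ∫⁻ s, k s
  set R := ENNReal.ofReal (2 * r) with hR
  have hR0 : R ≠ 0 := by
    rw [hR]; simp; linarith
  have hRt : R ≠ ⊤ := ENNReal.ofReal_ne_top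
  have third : ∀ J : ℝ≥0∞, (K ^ (1/2 : ℝ) * (R ^ 2 * k1) * J ^ (3/2 : ℝ)) ^ (1/3 : ℝ) =
      (K ^ (1/2 : ℝ) * (R ^ 2 * k1)) ^ (1/3 : ℝ) * J ^ (1/2 : ℝ) := by
    intro J
    rw [ENNReal.mul_rpow_of_nonneg _ _ (by norm_num), ← ENNReal.rpow_mul]
    norm_num
  have cube : ∀ x : ℝ≥0∞, x ^ (1/3 : ℝ) * x ^ (1/3 : ℝ) * x ^ (1/3 : ℝ) = x := by
    intro x
    rw [← ENNReal.rpow_add_of_nonneg _ _ (by norm_num) (by norm_num),
      ← ENNReal.rpow_add_of_nonneg _ _ (by norm_num) (by norm_num)]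
    norm_num
  have fin : R ^ 3 * ∫⁻ p, H₁ p ^ (1/2 : ℝ) * H₂ p ^ (1/2 : ℝ) * H₃ p ^ (1/2 : ℝ) ≤
      R ^ 2 * (K ^ (1/2 : ℝ) * k1 * (J1 ^ (1/2 : ℝ) * J2 ^ (1/2 : ℝ) * J3 ^ (1/2 : ℝ))) := by
    refine main.trans (hol.trans ?_)
    calc _ ≤ (K ^ (1/2 : ℝ) * (R ^ 2 * k1) * J1 ^ (3/2 : ℝ)) ^ (1/3 : ℝ) *
          (K ^ (1/2 : ℝ) * (R ^ 2 * k1) * J2 ^ (3/2 : ℝ)) ^ (1/3 : ℝ) *
          (K ^ (1/2 : ℝ) * (R ^ 2 * k1) * J3 ^ (3/2 : ℝ)) ^ (1/3 : ℝ) := by gcongr
      _ = ((K ^ (1/2 : ℝ) * (R ^ 2 * k1)) ^ (1/3 : ℝ) * (K ^ (1/2 : ℝ) * (R ^ 2 * k1)) ^ (1/3 : ℝ) *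
          (K ^ (1/2 : ℝ) * (R ^ 2 * k1)) ^ (1/3 : ℝ)) *
          (J1 ^ (1/2 : ℝ) * J2 ^ (1/2 : ℝ) * J3 ^ (1/2 : ℝ)) := by
          rw [third, third, third]; ring
      _ = _ := by rw [cube]; ring
  have e3 : R ^ 3 * ∫⁻ p, H₁ p ^ (1/2 : ℝ) * H₂ p ^ (1/2 : ℝ) * H₃ p ^ (1/2 : ℝ) =
      R ^ 2 * (R * ∫⁻ p, H₁ p ^ (1/2 : ℝ) * H₂ p ^ (1/2 : ℝ) * H₃ p ^ (1/2 : ℝ)) := by ring
  rw [e3] at fin
  exact (ENNReal.mul_le_mul_iff_right (pow_ne_zero 2 hR0) (ENNReal.pow_ne_top hRt)).1 fin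

end Vale.Agent.P106.Tri
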