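import Vale.Agent.P106.Tri.LWLoc
import Vale.Agent.P117.Bdl.B2

/-! # Loomis–Whitney for functions locally constant along three skew directions -/

open MeasureTheory Set
open scoped ENNReal NNReal

set_option linter.all false

namespace Vale.Agent.P106.Tri

open Vale.Agent.P117 (E2 E3)

/-- the averaging kernel -/
noncomputable def kap (M L₀ s : ℝ) : ℝ≥0∞ := ENNReal.ofReal (M * (L₀ * (1 + (L₀ * s) ^ 2)⁻¹))

theorem measurable_kap (M L₀ : ℝ) : Measurable (kap M L₀) := by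
  unfold kap; fun_prop

theorem lintegral_kap {M L₀ : ℝ} (hM : 0 ≤ M) (hL : 0 < L₀) :
    ∫⁻ s, kap M L₀ s = ENNReal.ofReal (M * Real.pi) := by
  have h := Vale.Agent.P117.lintegral_w (N := L₀⁻¹) (by positivity)
  rw [ENNReal.ofReal_mul hM, ← h, ← lintegral_const_mul]
  · refine lintegral_congr fun s => ?_
    unfold kap
    rw [ENNReal.ofReal_mul hM]
    simp only [inv_inv, div_inv_eq_mul]
    rw [mul_comm s L₀]
  · fun_prop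

theorem kap_le {M L₀ : ℝ} (hM : 0 ≤ M) (hL : 0 < L₀) (s : ℝ) : kap M L₀ s ≤ ENNReal.ofReal (M * L₀) := by
  unfold kap
  apply ENNReal.ofReal_le_ofReal
  have : (1 + (L₀ * s) ^ 2)⁻¹ ≤ 1 := by
    apply inv_le_one_of_one_le₀; nlinarith [sq_nonneg (L₀ * s)]
  calc M * (L₀ * (1 + (L₀ * s) ^ 2)⁻¹) ≤ M * (L₀ * 1) := by gcongr
    _ = _ := by ring

theorem kap_shift {M L₀ : ℝ} (hM : 0 ≤ M) (hL : 0 < L₀) (s s' : ℝ) (h : |s'| ≤ L₀⁻¹) :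
    kap M L₀ (s + s') ≤ kap (3 * M) L₀ s := by
  unfold kap
  apply ENNReal.ofReal_le_ofReal
  have h1 : (L₀ * s') ^ 2 ≤ 1 := by
    rw [← sq_abs, abs_mul, abs_of_pos hL]
    have : L₀ * |s'| ≤ 1 := by
      calc L₀ * |s'| ≤ L₀ * L₀⁻¹ := by gcongr
        _ = 1 := mul_inv_cancel₀ hL.ne'
    have h0 : 0 ≤ L₀ * |s'| := by positivity
    nlinarith
  have h2 : 1 + (L₀ * s) ^ 2 ≤ 3 * (1 + (L₀ * (s + s')) ^ 2) := by
    nlinarith [sq_nonneg (L₀ * s + 2 * (L₀ * s'))]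
  have h3 : (1 + (L₀ * (s + s')) ^ 2)⁻¹ ≤ 3 * (1 + (L₀ * s) ^ 2)⁻¹ := by
    rw [← div_eq_mul_inv, inv_eq_one_div, div_le_div_iff₀ (by positivity) (by positivity)]
    linarith
  calc M * (L₀ * (1 + (L₀ * (s + s')) ^ 2)⁻¹) ≤ M * (L₀ * (3 * (1 + (L₀ * s) ^ 2)⁻¹)) := by gcongr
    _ = _ := by ring

/-- the Loomis-Whitney constant -/
noncomputable def cLW (M : ℝ) : ℝ := (3 * M) ^ (1/2 : ℝ) * (3 * M * Real.pi) / 2

theorem lw_scaled {M L₀ : ℝ} (hM : 0 ≤ M) (hL : 0 < L₀)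
    {H₁ H₂ H₃ : ℝ × ℝ × ℝ → ℝ≥0∞} (m₁ : Measurable H₁) (m₂ : Measurable H₂) (m₃ : Measurable H₃)
    (l₁ : ∀ a b c, H₁ (a, b, c) ≤ ∫⁻ s, kap M L₀ (a - s) * H₁ (s, b, c))
    (l₂ : ∀ a b c, H₂ (a, b, c) ≤ ∫⁻ s, kap M L₀ (b - s) * H₂ (a, s, c))
    (l₃ : ∀ a b c, H₃ (a, b, c) ≤ ∫⁻ s, kap M L₀ (c - s) * H₃ (a, b, s)) :
    ∫⁻ p, H₁ p ^ (1/2 : ℝ) * H₂ p ^ (1/2 : ℝ) * H₃ p ^ (1/2 : ℝ) ≤
      ENNReal.ofReal (cLW M * L₀ ^ (3/2 : ℝ)) *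
        ((∫⁻ p, H₁ p) ^ (1/2 : ℝ) * (∫⁻ p, H₂ p) ^ (1/2 : ℝ) * (∫⁻ p, H₃ p) ^ (1/2 : ℝ)) := by
  have hr : 0 < L₀⁻¹ := by positivity
  have h := lw_local (κ := kap M L₀) (k := kap (3 * M) L₀) (measurable_kap _ _) (measurable_kap _ _) hr
    (fun s s' h => kap_shift hM hL s s' h) (K := ENNReal.ofReal (3 * M * L₀))
    (fun s => kap_le (by positivity) hL s) m₁ m₂ m₃ l₁ l₂ l₃
  rw [lintegral_kap (by positivity) hL] at h
  set I := ∫⁻ p, H₁ p ^ (1/2 : ℝ) * H₂ p ^ (1/2 : ℝ) * H₃ p ^ (1/2 : ℝ) with hI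
  set J := (∫⁻ p, H₁ p) ^ (1/2 : ℝ) * (∫⁻ p, H₂ p) ^ (1/2 : ℝ) * (∫⁻ p, H₃ p) ^ (1/2 : ℝ) with hJ
  have e1 : I = ENNReal.ofReal (L₀ / 2) * (ENNReal.ofReal (2 * L₀⁻¹) * I) := by
    rw [← mul_assoc, ← ENNReal.ofReal_mul (by positivity)]
    have : L₀ / 2 * (2 * L₀⁻¹) = 1 := by field_simp
    rw [this, ENNReal.ofReal_one, one_mul]
  rw [e1]
  calc ENNReal.ofReal (L₀ / 2) * (ENNReal.ofReal (2 * L₀⁻¹) * I) ≤
      ENNReal.ofReal (L₀ / 2) * (ENNReal.ofReal (3 * M * L₀) ^ (1/2 : ℝ) *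
        ENNReal.ofReal (3 * M * Real.pi) * J) := by gcongr
    _ = ENNReal.ofReal (L₀ / 2) * (ENNReal.ofReal (3 * M * L₀) ^ (1/2 : ℝ) *
        ENNReal.ofReal (3 * M * Real.pi)) * J := by ring
    _ = _ := by
      congr 1
      rw [ENNReal.ofReal_rpow_of_nonneg (by positivity) (by norm_num),
        ← ENNReal.ofReal_mul (by positivity), ← ENNReal.ofReal_mul (by positivity)]
      congr 1
      unfold cLW
      rw [Real.mul_rpow (by positivity) hL.le, show (3/2 : ℝ) = 1 + 1/2 by norm_num,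
        Real.rpow_add hL, Real.rpow_one]
      ring

/-- the linear map sending the basis to three given vectors -/
noncomputable def skL (n₁ n₂ n₃ : E3) : E3 →ₗ[ℝ] E3 :=
  Matrix.toLin (EuclideanSpace.basisFun (Fin 3) ℝ).toBasis (EuclideanSpace.basisFun (Fin 3) ℝ).toBasis
    !![n₁ 0, n₂ 0, n₃ 0; n₁ 1, n₂ 1, n₃ 1; n₁ 2, n₂ 2, n₃ 2]

/-- the determinant of three vectors -/
noncomputable def dt (n₁ n₂ n₃ : E3) : ℝ :=
  n₁ 0 * n₂ 1 * n₃ 2 - n₁ 0 * n₃ 1 * n₂ 2 - n₂ 0 * n₁ 1 * n₃ 2 + n₂ 0 * n₃ 1 * n₁ 2 +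
    n₃ 0 * n₁ 1 * n₂ 2 - n₃ 0 * n₂ 1 * n₁ 2

theorem skL_det (n₁ n₂ n₃ : E3) : LinearMap.det (skL n₁ n₂ n₃) = dt n₁ n₂ n₃ := by
  unfold skL dt
  rw [LinearMap.det_toLin, Matrix.det_fin_three]
  simp

theorem skL_apply (n₁ n₂ n₃ : E3) (x : E3) : skL n₁ n₂ n₃ x = x 0 • n₁ + x 1 • n₂ + x 2 • n₃ := by
  unfold skL
  ext i
  fin_cases i <;>
  · simp [Matrix.toLin_apply, Fin.sum_univ_three, Matrix.mulVec, dotProduct]
    ring

theorem lintegral_E3' {F : E3 → ℝ≥0∞} (hF : Measurable F) :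
    ∫⁻ x : E3, F x = ∫⁻ p : ℝ × ℝ × ℝ, F (!₂[p.1, p.2.1, p.2.2]) := by
  have mm : Measurable (fun z : (ℝ × ℝ) × ℝ => (!₂[z.1.1, z.1.2, z.2] : E3)) := by
    apply (WithLp.measurable_toLp 2 (Fin 3 → ℝ)).comp
    apply measurable_pi_lambda
    intro i
    fin_cases i
    · exact measurable_fst.comp measurable_fst
    · exact measurable_snd.comp measurable_fst
    · exact measurable_snd
  have mm' : Measurable (fun z : ℝ × ℝ × ℝ => (!₂[z.1, z.2.1, z.2.2] : E3)) := by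
    apply (WithLp.measurable_toLp 2 (Fin 3 → ℝ)).comp
    apply measurable_pi_lambda
    intro i
    fin_cases i
    · exact measurable_fst
    · exact measurable_fst.comp measurable_snd
    · exact measurable_snd.comp measurable_snd
  have h1 : ∫⁻ x : E3, F x = ∫⁻ z : (ℝ × ℝ) × ℝ, F (!₂[z.1.1, z.1.2, z.2]) := by
    rw [← Vale.Agent.P117.lintegral_E3 (fun z => F (!₂[z.1.1, z.1.2, z.2]))]
    refine lintegral_congr fun x => ?_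
    congr 1
    ext i
    fin_cases i <;> rfl
  have h2 : Measurable (fun z : (ℝ × ℝ) × ℝ => F (!₂[z.1.1, z.1.2, z.2])) := hF.comp mm
  rw [h1, lint3 (F := fun p => F (!₂[p.1, p.2.1, p.2.2])) (hF.comp mm'), Measure.volume_eq_prod,
    lintegral_prod _ h2.aemeasurable, Measure.volume_eq_prod, lintegral_prod]
  exact h2.lintegral_prod_right'.aemeasurable

theorem lintegral_skew {n₁ n₂ n₃ : E3} (hd : dt n₁ n₂ n₃ ≠ 0) {F : E3 → ℝ≥0∞} (hF : Measurable F) :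
    ∫⁻ p : ℝ × ℝ × ℝ, F (p.1 • n₁ + p.2.1 • n₂ + p.2.2 • n₃) =
      ENNReal.ofReal |(dt n₁ n₂ n₃)⁻¹| * ∫⁻ x, F x := by
  have hdet : LinearMap.det (skL n₁ n₂ n₃) ≠ 0 := by rwa [skL_det]
  have hmap := Measure.map_linearMap_addHaar_eq_smul_addHaar (μ := (volume : Measure E3)) hdet
  have hc : Continuous (skL n₁ n₂ n₃) := (skL n₁ n₂ n₃).continuous_of_finiteDimensional
  have h1 : ∫⁻ p : ℝ × ℝ × ℝ, F (p.1 • n₁ + p.2.1 • n₂ + p.2.2 • n₃) =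
      ∫⁻ x : E3, F (skL n₁ n₂ n₃ x) := by
    have h2 : Measurable (fun x => F (skL n₁ n₂ n₃ x)) := hF.comp hc.measurable
    rw [lintegral_E3' h2]
    refine lintegral_congr fun p => ?_
    simp only [skL_apply]
    rfl
  rw [h1, ← lintegral_map hF hc.measurable, hmap, lintegral_smul_measure, skL_det, smul_eq_mul]

theorem lw_skew {M L₀ : ℝ} (hM : 0 ≤ M) (hL : 0 < L₀) {n₁ n₂ n₃ : E3} {ν : ℝ} (hν : 0 < ν)
    (hd : ν ≤ |dt n₁ n₂ n₃|)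
    {H₁ H₂ H₃ : E3 → ℝ≥0∞} (m₁ : Measurable H₁) (m₂ : Measurable H₂) (m₃ : Measurable H₃)
    (l₁ : ∀ y, H₁ y ≤ ∫⁻ s, kap M L₀ s * H₁ (y - s • n₁))
    (l₂ : ∀ y, H₂ y ≤ ∫⁻ s, kap M L₀ s * H₂ (y - s • n₂))
    (l₃ : ∀ y, H₃ y ≤ ∫⁻ s, kap M L₀ s * H₃ (y - s • n₃)) :
    ∫⁻ y, H₁ y ^ (1/2 : ℝ) * H₂ y ^ (1/2 : ℝ) * H₃ y ^ (1/2 : ℝ) ≤
      ENNReal.ofReal (ν ^ (-1/2 : ℝ) * cLW M * L₀ ^ (3/2 : ℝ)) *
        ((∫⁻ y, H₁ y) ^ (1/2 : ℝ) * (∫⁻ y, H₂ y) ^ (1/2 : ℝ) * (∫⁻ y, H₃ y) ^ (1/2 : ℝ)) := by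
  have hd0 : 0 < |dt n₁ n₂ n₃| := hν.trans_le hd
  have hdn : dt n₁ n₂ n₃ ≠ 0 := abs_pos.1 hd0
  set A : ℝ × ℝ × ℝ → E3 := fun p => p.1 • n₁ + p.2.1 • n₂ + p.2.2 • n₃ with hA
  have mA : Measurable A := by rw [hA]; fun_prop
  have sub1 : ∀ (G : ℝ → ℝ≥0∞) (a : ℝ), Measurable G →
      ∫⁻ s, kap M L₀ s * G (a - s) = ∫⁻ s, kap M L₀ (a - s) * G s := by
    intro G a hG
    rw [← lintegral_sub_left_eq_self (fun s => kap M L₀ (a - s) * G s) a]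
    simp only [sub_sub_cancel]
  have h := lw_scaled hM hL (H₁ := fun p => H₁ (A p)) (H₂ := fun p => H₂ (A p))
    (H₃ := fun p => H₃ (A p)) (m₁.comp mA) (m₂.comp mA) (m₃.comp mA)
    (by
      intro a b c
      rw [← sub1 (fun s => H₁ (A (s, b, c))) a (m₁.comp (by rw [hA]; fun_prop))]
      refine (l₁ _).trans (le_of_eq ?_)
      refine lintegral_congr fun s => ?_
      congr 2
      simp only [hA, sub_smul]; abel)
    (by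
      intro a b c
      rw [← sub1 (fun s => H₂ (A (a, s, c))) b (m₂.comp (by rw [hA]; fun_prop))]
      refine (l₂ _).trans (le_of_eq ?_)
      refine lintegral_congr fun s => ?_
      congr 2
      simp only [hA, sub_smul]; abel)
    (by
      intro a b c
      rw [← sub1 (fun s => H₃ (A (a, b, s))) c (m₃.comp (by rw [hA]; fun_prop))]
      refine (l₃ _).trans (le_of_eq ?_)
      refine lintegral_congr fun s => ?_
      congr 2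
      simp only [hA, sub_smul]; abel)
  set D := |(dt n₁ n₂ n₃)⁻¹| with hD
  have hDpos : 0 < D := by rw [hD]; exact abs_pos.2 (inv_ne_zero hdn)
  have hDle : D ≤ ν⁻¹ := by
    rw [hD, abs_inv]; exact inv_anti₀ hν hd
  have hi : ∀ {F : E3 → ℝ≥0∞}, Measurable F → ∫⁻ p, F (A p) = ENNReal.ofReal D * ∫⁻ x, F x :=
    fun hF => lintegral_skew hdn hF
  rw [hi m₁, hi m₂, hi m₃, hi (F := fun y => H₁ y ^ (1/2 : ℝ) * H₂ y ^ (1/2 : ℝ) * H₃ y ^ (1/2 : ℝ))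
    (((m₁.pow_const _).mul (m₂.pow_const _)).mul (m₃.pow_const _))] at h
  set I := ∫⁻ y, H₁ y ^ (1/2 : ℝ) * H₂ y ^ (1/2 : ℝ) * H₃ y ^ (1/2 : ℝ) with hI
  set J₁ := ∫⁻ y, H₁ y
  set J₂ := ∫⁻ y, H₂ y
  set J₃ := ∫⁻ y, H₃ y
  have e1 : (ENNReal.ofReal D * J₁) ^ (1/2 : ℝ) * (ENNReal.ofReal D * J₂) ^ (1/2 : ℝ) *
      (ENNReal.ofReal D * J₃) ^ (1/2 : ℝ) = ENNReal.ofReal (D ^ (1/2 : ℝ) * D) *
      (J₁ ^ (1/2 : ℝ) * J₂ ^ (1/2 : ℝ) * J₃ ^ (1/2 : ℝ)) := by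
    rw [ENNReal.mul_rpow_of_nonneg _ _ (by norm_num), ENNReal.mul_rpow_of_nonneg _ _ (by norm_num),
      ENNReal.mul_rpow_of_nonneg _ _ (by norm_num), ENNReal.ofReal_rpow_of_pos hDpos,
      ENNReal.ofReal_mul (by positivity)]
    have : ENNReal.ofReal D = ENNReal.ofReal (D ^ (1/2 : ℝ)) * ENNReal.ofReal (D ^ (1/2 : ℝ)) := by
      rw [← ENNReal.ofReal_mul (by positivity), ← Real.rpow_add hDpos]; norm_num
    rw [this]
    ring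
  rw [e1] at h
  set J := J₁ ^ (1/2 : ℝ) * J₂ ^ (1/2 : ℝ) * J₃ ^ (1/2 : ℝ)
  have e2 : I = ENNReal.ofReal D⁻¹ * (ENNReal.ofReal D * I) := by
    rw [← mul_assoc, ← ENNReal.ofReal_mul (by positivity), inv_mul_cancel₀ hDpos.ne',
      ENNReal.ofReal_one, one_mul]
  rw [e2]
  calc ENNReal.ofReal D⁻¹ * (ENNReal.ofReal D * I) ≤ ENNReal.ofReal D⁻¹ *
        (ENNReal.ofReal (cLW M * L₀ ^ (3/2 : ℝ)) * (ENNReal.ofReal (D ^ (1/2 : ℝ) * D) * J)) := by gcongr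
    _ = ENNReal.ofReal (D ^ (1/2 : ℝ) * (cLW M * L₀ ^ (3/2 : ℝ))) * J := by
        have hc : 0 ≤ cLW M := by unfold cLW; positivity
        rw [← mul_assoc, ← mul_assoc, ← ENNReal.ofReal_mul (by positivity),
          ← ENNReal.ofReal_mul (by positivity)]
        congr 2
        field_simp
    _ ≤ _ := by
        refine mul_le_mul_left (ENNReal.ofReal_le_ofReal ?_) _
        have hc : 0 ≤ cLW M := by unfold cLW; positivity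
        have : D ^ (1/2 : ℝ) ≤ ν ^ (-1/2 : ℝ) := by
          rw [show (-1/2 : ℝ) = -(1/2) by norm_num, Real.rpow_neg hν.le, ← Real.inv_rpow hν.le]
          exact Real.rpow_le_rpow hDpos.le hDle (by norm_num)
        calc D ^ (1/2 : ℝ) * (cLW M * L₀ ^ (3/2 : ℝ)) ≤ ν ^ (-1/2 : ℝ) * (cLW M * L₀ ^ (3/2 : ℝ)) := by
              gcongr
          _ = _ := by ring

end Vale.Agent.P106.Tri
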