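import Vale.Agent.P106.Tri.Four

/-! # The induction on scales step -/

open MeasureTheory Complex Set
open scoped ENNReal NNReal ContDiff FourierTransform SchwartzMap ComplexConjugate

set_option linter.all false

namespace Vale.Agent.P106.Tri

open Vale.Agent.P117 (E2 E3 integrable_cv cv)

/-- the normal direction of a piece of slope `w` -/
noncomputable def nv (w : ℝ × ℝ) : E3 := !₂[w.1, w.2, -1]

/-- horizontal part -/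
def hz (ζ : E3) : ℝ × ℝ := (ζ 0, ζ 1)

theorem measurable_hz : Measurable hz := by unfold hz; fun_prop

theorem inner_nv (t : E3) (w : ℝ × ℝ) : inner ℝ t (nv w) = w.1 * t 0 + w.2 * t 1 - t 2 := by
  unfold nv
  simp [PiLp.inner_apply, Fin.sum_univ_three]
  ring

theorem abs_coord_le (t : E3) (i : Fin 3) : |t i| ≤ ‖t‖ := by
  have := PiLp.norm_apply_le t i
  simpa using this

theorem hz_sub_le (t t' : E3) : ‖hz t - hz t'‖ ≤ ‖t - t'‖ := by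
  unfold hz
  rw [Prod.norm_def]
  apply max_le
  · have := abs_coord_le (t - t') 0
    simpa using this
  · have := abs_coord_le (t - t') 1
    simpa using this

/-- `q` is `θ`-close to an affine map of slope `w` on the ball of radius `δ` about `c` -/
def LinAt (q : ℝ × ℝ → ℝ) (c w : ℝ × ℝ) (δ θ : ℝ) : Prop :=
  ∀ ξ ξ' : ℝ × ℝ, ‖ξ - c‖ ≤ δ → ‖ξ' - c‖ ≤ δ →
    |q ξ - q ξ' - (w.1 * (ξ.1 - ξ'.1) + w.2 * (ξ.2 - ξ'.2))| ≤ θ * ‖ξ - ξ'‖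

/-- integrable functions supported in a neighbourhood of a piece of surface -/
structure Gd (q : ℝ × ℝ → ℝ) (c : ℝ × ℝ) (δ' ρ : ℝ) (g : E3 → ℂ) : Prop where
  meas : Measurable g
  int : Integrable g
  supp : ∀ ζ, g ζ ≠ 0 → ‖hz ζ - c‖ ≤ δ' ∧ |ζ 2 - q (hz ζ)| ≤ ρ

theorem Gd.mono {q : ℝ × ℝ → ℝ} {c : ℝ × ℝ} {δ' ρ δ'' ρ' : ℝ} {g : E3 → ℂ} (h : Gd q c δ' ρ g)
    (h1 : δ' ≤ δ'') (h2 : ρ ≤ ρ') : Gd q c δ'' ρ' g :=
  ⟨h.meas, h.int, fun ζ hζ => ⟨(h.supp ζ hζ).1.trans h1, (h.supp ζ hζ).2.trans h2⟩⟩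

/-- trilinear bound at given scales -/
def TriBd (q : Fin 3 → ℝ × ℝ → ℝ) (c : Fin 3 → ℝ × ℝ) (A δ' ρ : ℝ) : Prop :=
  ∀ g : Fin 3 → E3 → ℂ, (∀ i, Gd (q i) (c i) δ' ρ (g i)) →
    ∫⁻ z, ‖𝓕⁻ (g 0) z‖ₑ * ‖𝓕⁻ (g 1) z‖ₑ * ‖𝓕⁻ (g 2) z‖ₑ ≤
      ENNReal.ofReal A * ((∫⁻ ζ, ‖g 0 ζ‖ₑ ^ 2) ^ (1/2 : ℝ) * (∫⁻ ζ, ‖g 1 ζ‖ₑ ^ 2) ^ (1/2 : ℝ) *
        (∫⁻ ζ, ‖g 2 ζ‖ₑ ^ 2) ^ (1/2 : ℝ))

theorem TriBd.mono {q : Fin 3 → ℝ × ℝ → ℝ} {c : Fin 3 → ℝ × ℝ} {A A' δ' δ'' ρ ρ' : ℝ}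
    (h : TriBd q c A δ' ρ) (hA : A ≤ A') (h1 : δ'' ≤ δ') (h2 : ρ' ≤ ρ) : TriBd q c A' δ'' ρ' := by
  intro g hg
  refine (h g fun i => (hg i).mono h1 h2).trans ?_
  gcongr

/-- smearing enlarges the support in a controlled way -/
theorem Gd.ga {q : ℝ × ℝ → ℝ} {c w : ℝ × ℝ} {δ δ' θ ρ L κ : ℝ} (hθ : 0 ≤ θ) (hθ' : θ ≤ 1/2)
    (hρ : 0 < ρ) (hL : 0 ≤ L) (hw1 : |w.1| ≤ L) (hw2 : |w.2| ≤ L) (hq : LinAt q c w δ θ)
    (hκ : κ = ρ / (4 * (1 + L))) (hδ : δ' + κ ≤ δ) {g : E3 → ℂ} (h : Gd q c δ' (θ * ρ) g) (y : E3) :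
    Gd q c (δ' + κ) ρ (ga κ g y) := by
  have hκ0 : 0 < κ := by rw [hκ]; positivity
  refine ⟨measurable_ga h.meas y, ?_, ?_⟩
  · have := integrable_cv (integrable_ky hκ0 y) h.int
    refine this.congr (Filter.Eventually.of_forall fun ζ => ?_)
    unfold Tri.ga cv
    congr 1
    ext t
    ring
  · intro ζ hζ
    obtain ⟨t, ht, htκ⟩ := ga_supp hκ0 hζ
    obtain ⟨s1, s2⟩ := h.supp t ht
    have d1 : ‖hz ζ - hz t‖ ≤ κ := (hz_sub_le ζ t).trans htκ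
    have d2 : ‖hz ζ - c‖ ≤ δ' + κ := by
      calc ‖hz ζ - c‖ = ‖(hz ζ - hz t) + (hz t - c)‖ := by congr 1; abel
        _ ≤ ‖hz ζ - hz t‖ + ‖hz t - c‖ := norm_add_le _ _
        _ ≤ _ := by linarith
    refine ⟨d2, ?_⟩
    have d3 := hq (hz ζ) (hz t) (d2.trans hδ) (s1.trans (by linarith))
    have e1 : |ζ 2 - t 2| ≤ κ := by
      have := abs_coord_le (ζ - t) 2
      simp only [PiLp.sub_apply] at this
      exact this.trans htκ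
    have e2 : |(hz ζ).1 - (hz t).1| ≤ κ := by
      have := norm_fst_le (hz ζ - hz t)
      rw [Real.norm_eq_abs] at this
      exact this.trans d1
    have e3 : |(hz ζ).2 - (hz t).2| ≤ κ := by
      have := norm_snd_le (hz ζ - hz t)
      rw [Real.norm_eq_abs] at this
      exact this.trans d1
    have e4 : |w.1 * ((hz ζ).1 - (hz t).1) + w.2 * ((hz ζ).2 - (hz t).2)| ≤ 2 * L * κ := by
      calc _ ≤ |w.1| * |(hz ζ).1 - (hz t).1| + |w.2| * |(hz ζ).2 - (hz t).2| := by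
            rw [← abs_mul, ← abs_mul]; exact abs_add_le _ _
        _ ≤ L * κ + L * κ := by gcongr
        _ = _ := by ring
    have e5 : θ * ‖hz ζ - hz t‖ ≤ θ * κ := by gcongr
    have e6 : |ζ 2 - q (hz ζ)| ≤ κ + θ * ρ + (2 * L * κ + θ * κ) := by
      have : ζ 2 - q (hz ζ) = (ζ 2 - t 2) + (t 2 - q (hz t)) -
          ((q (hz ζ) - q (hz t) - (w.1 * ((hz ζ).1 - (hz t).1) + w.2 * ((hz ζ).2 - (hz t).2))) +
            (w.1 * ((hz ζ).1 - (hz t).1) + w.2 * ((hz ζ).2 - (hz t).2))) := by ring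
      rw [this]
      refine (abs_sub _ _).trans ?_
      refine add_le_add ((abs_add_le _ _).trans (add_le_add e1 s2)) ((abs_add_le _ _).trans ?_)
      linarith
    have e7 : κ * (4 * (1 + L)) = ρ := by rw [hκ]; field_simp
    nlinarith

theorem Gd.osc {q : ℝ × ℝ → ℝ} {c w : ℝ × ℝ} {δ δ' θ ρ L κ : ℝ} (hθ : 0 ≤ θ)
    (hρ : 0 < ρ) (hL : 0 ≤ L) (hq : LinAt q c w δ θ)
    (hκ : κ = ρ / (4 * (1 + L))) (hδ : δ' ≤ δ) {g : E3 → ℂ} (h : Gd q c δ' (θ * ρ) g) (t t' : E3)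
    (ht : g t ≠ 0) (ht' : g t' ≠ 0) (htt : ‖t - t'‖ ≤ 2 * κ) :
    |inner ℝ t (nv w) - inner ℝ t' (nv w)| ≤ 6 * θ * ρ / 2 := by
  obtain ⟨s1, s2⟩ := h.supp t ht
  obtain ⟨s1', s2'⟩ := h.supp t' ht'
  have d1 := hq (hz t) (hz t') (s1.trans hδ) (s1'.trans hδ)
  have hκ0 : 0 < κ := by rw [hκ]; positivity
  have e7 : κ * (4 * (1 + L)) = ρ := by rw [hκ]; field_simp
  have e8 : 4 * κ ≤ ρ := by nlinarith
  have d2 : θ * ‖hz t - hz t'‖ ≤ θ * (2 * κ) := by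
    gcongr
    exact (hz_sub_le t t').trans htt
  rw [inner_nv, inner_nv]
  have e : w.1 * t 0 + w.2 * t 1 - t 2 - (w.1 * t' 0 + w.2 * t' 1 - t' 2) =
      (t' 2 - q (hz t')) - (t 2 - q (hz t)) -
      (q (hz t) - q (hz t') - (w.1 * ((hz t).1 - (hz t').1) + w.2 * ((hz t).2 - (hz t').2))) := by
    simp only [hz]; ring
  rw [e]
  refine (abs_sub _ _).trans ?_
  have := abs_sub (t' 2 - q (hz t')) (t 2 - q (hz t))
  nlinarith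

theorem measurable_inv {g : E3 → ℂ} (hg : Integrable g) : Measurable (𝓕⁻ g) :=
  (Vale.Agent.P117.continuous_fourierInv hg).measurable

/-- the scale reduction step -/
theorem step : ∃ C : ℝ, 0 < C ∧ ∀ (q : Fin 3 → ℝ × ℝ → ℝ) (c w : Fin 3 → ℝ × ℝ) (ν L δ δ' θ ρ κ A : ℝ)
    (_ : 0 < ν) (_ : ν ≤ |dt (nv (w 0)) (nv (w 1)) (nv (w 2))|) (_ : 0 ≤ L)
    (_ : ∀ i, |(w i).1| ≤ L ∧ |(w i).2| ≤ L) (_ : 0 < θ) (_ : θ ≤ 1/2) (_ : 0 < ρ)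
    (_ : ∀ i, LinAt (q i) (c i) (w i) δ θ) (_ : κ = ρ / (4 * (1 + L))) (_ : δ' + κ ≤ δ) (_ : 0 ≤ A),
    TriBd q c A (δ' + κ) ρ →
    TriBd q c (C * ν ^ (-1/2 : ℝ) * (1 + L) ^ (3/2 : ℝ) * θ ^ (3/2 : ℝ) * A) δ' (θ * ρ) := by
  obtain ⟨M, hM, hloc⟩ := Ha_local
  obtain ⟨c3, hc3, hcube⟩ := Psi_cube
  obtain ⟨cK, hcK, hKsq⟩ := KS_sq
  refine ⟨c3⁻¹ * (cLW M + 1) * (cK + 1) ^ (3/2 : ℝ) * 24 ^ (3/2 : ℝ), by
    have : 0 ≤ cLW M := by unfold cLW; positivity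
    positivity, ?_⟩
  intro q c w ν L δ δ' θ ρ κ A hν hdet hL hw hθ hθ' hρ hq hκ hδ hA hT g hg
  have hcl : 0 ≤ cLW M := by unfold cLW; positivity
  have hκ0 : 0 < κ := by rw [hκ]; positivity
  have hL0 : 0 < 6 * θ * ρ := by positivity
  have hH : ∀ i y, Ha κ (g i) y ≤ ∫⁻ s, kap M (6 * θ * ρ) s * Ha κ (g i) (y - s • nv (w i)) := by
    intro i y
    exact hloc κ (6 * θ * ρ) hκ0 hL0 (nv (w i)) (g i) (hg i).meas (hg i).int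
      (fun t t' ht ht' htt => (hg i).osc hθ.le hρ hL (hq i) hκ (by linarith) t t' ht ht' htt) y
  have hgd : ∀ i y, Gd (q i) (c i) (δ' + κ) ρ (ga κ (g i) y) := fun i y =>
    (hg i).ga hθ.le hθ' hρ hL (hw i).1 (hw i).2 (hq i) hκ hδ y
  set I := ∫⁻ z, ‖𝓕⁻ (g 0) z‖ₑ * ‖𝓕⁻ (g 1) z‖ₑ * ‖𝓕⁻ (g 2) z‖ₑ with hI
  have mI : Measurable (fun z => ‖𝓕⁻ (g 0) z‖ₑ * ‖𝓕⁻ (g 1) z‖ₑ * ‖𝓕⁻ (g 2) z‖ₑ) :=
    ((measurable_inv (hg 0).int).enorm.mul (measurable_inv (hg 1).int).enorm).mul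
      (measurable_inv (hg 2).int).enorm
  have mPs : Measurable (fun x : E3 => ‖Psi x‖ₑ ^ 3) := Psi.continuous.measurable.enorm.pow_const _
  -- step A: averaging
  have stepA : ENNReal.ofReal ((κ ^ 3)⁻¹) * ENNReal.ofReal c3 * I ≤
      ∫⁻ y, ENNReal.ofReal A * (Ha κ (g 0) y ^ (1/2 : ℝ) * Ha κ (g 1) y ^ (1/2 : ℝ) *
        Ha κ (g 2) y ^ (1/2 : ℝ)) := by
    have e1 : ∀ z : E3, ∫⁻ y : E3, ‖Psi (κ • (z - y))‖ₑ ^ 3 =
        ENNReal.ofReal ((κ ^ 3)⁻¹) * ∫⁻ x : E3, ‖Psi x‖ₑ ^ 3 := by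
      intro z
      rw [lintegral_sub_left_eq_self (fun y => ‖Psi (κ • y)‖ₑ ^ 3) z]
      exact lintegral_smul3 hκ0 mPs
    calc ENNReal.ofReal ((κ ^ 3)⁻¹) * ENNReal.ofReal c3 * I ≤
          ENNReal.ofReal ((κ ^ 3)⁻¹) * (∫⁻ x : E3, ‖Psi x‖ₑ ^ 3) * I := by gcongr
      _ = ∫⁻ z, ∫⁻ y : E3, ‖Psi (κ • (z - y))‖ₑ ^ 3 *
            (‖𝓕⁻ (g 0) z‖ₑ * ‖𝓕⁻ (g 1) z‖ₑ * ‖𝓕⁻ (g 2) z‖ₑ) := by
          rw [hI, ← lintegral_const_mul _ mI]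
          refine lintegral_congr fun z => ?_
          have m1 : Measurable (fun y : E3 => ‖Psi (κ • (z - y))‖ₑ ^ 3) := mPs.comp (by fun_prop)
          rw [lintegral_mul_const _ m1, e1]
      _ = ∫⁻ y : E3, ∫⁻ z, ‖Psi (κ • (z - y))‖ₑ ^ 3 *
            (‖𝓕⁻ (g 0) z‖ₑ * ‖𝓕⁻ (g 1) z‖ₑ * ‖𝓕⁻ (g 2) z‖ₑ) := by
          apply lintegral_lintegral_swap
          apply Measurable.aemeasurable
          have m2 : Measurable (fun p : E3 × E3 => ‖Psi (κ • (p.1 - p.2))‖ₑ ^ 3) :=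
            mPs.comp (by fun_prop)
          exact m2.mul (mI.comp measurable_fst)
      _ = ∫⁻ y : E3, ∫⁻ z, ‖𝓕⁻ (ga κ (g 0) y) z‖ₑ * ‖𝓕⁻ (ga κ (g 1) y) z‖ₑ *
            ‖𝓕⁻ (ga κ (g 2) y) z‖ₑ := by
          refine lintegral_congr fun y => lintegral_congr fun z => ?_
          rw [inv_ga hκ0 (hg 0).int, inv_ga hκ0 (hg 1).int, inv_ga hκ0 (hg 2).int]
          simp only [enorm_mul]
          ring
      _ ≤ _ := by
          refine lintegral_mono fun y => ?_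
          refine (hT (fun i => ga κ (g i) y) (fun i => hgd i y)).trans (le_of_eq ?_)
          simp only [enorm_ga]
          rfl
  have mH : ∀ i, Measurable (Ha κ (g i)) := fun i => measurable_Ha κ (hg i).meas
  have mHp : Measurable (fun y => Ha κ (g 0) y ^ (1/2 : ℝ) * Ha κ (g 1) y ^ (1/2 : ℝ) *
      Ha κ (g 2) y ^ (1/2 : ℝ)) :=
    (((mH 0).pow_const _).mul ((mH 1).pow_const _)).mul ((mH 2).pow_const _)
  rw [lintegral_const_mul _ mHp] at stepA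
  have stepB := lw_skew hM hL0 hν hdet (mH 0) (mH 1) (mH 2) (hH 0) (hH 1) (hH 2)
  -- step C : L2 norms
  set J : Fin 3 → ℝ≥0∞ := fun i => ∫⁻ ζ, ‖g i ζ‖ₑ ^ 2 with hJ
  have stepC : ∀ i, (∫⁻ y, Ha κ (g i) y) ^ (1/2 : ℝ) ≤
      ENNReal.ofReal (((κ ^ 3)⁻¹ * cK) ^ (1/2 : ℝ)) * J i ^ (1/2 : ℝ) := by
    intro i
    calc (∫⁻ y, Ha κ (g i) y) ^ (1/2 : ℝ) ≤ (ENNReal.ofReal ((κ ^ 3)⁻¹ * cK) * J i) ^ (1/2 : ℝ) := by
          gcongr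
          refine (lintegral_Ha_le hκ0 (hg i).int (hg i).meas).trans ?_
          rw [ENNReal.ofReal_mul (by positivity)]
          gcongr
      _ = _ := by
          rw [ENNReal.mul_rpow_of_nonneg _ _ (by norm_num),
            ENNReal.ofReal_rpow_of_nonneg (by positivity) (by norm_num)]
  set X := ((κ ^ 3)⁻¹ * cK) ^ (1/2 : ℝ) with hX
  have hX0 : 0 ≤ X := by positivity
  have fin1 : ENNReal.ofReal ((κ ^ 3)⁻¹ * c3) * I ≤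
      ENNReal.ofReal (A * (ν ^ (-1/2 : ℝ) * cLW M * (6 * θ * ρ) ^ (3/2 : ℝ)) * X ^ 3) *
        (J 0 ^ (1/2 : ℝ) * J 1 ^ (1/2 : ℝ) * J 2 ^ (1/2 : ℝ)) := by
    rw [ENNReal.ofReal_mul (by positivity)]
    refine stepA.trans ?_
    calc _ ≤ ENNReal.ofReal A * (ENNReal.ofReal (ν ^ (-1/2 : ℝ) * cLW M * (6 * θ * ρ) ^ (3/2 : ℝ)) *
          ((ENNReal.ofReal X * J 0 ^ (1/2 : ℝ)) * (ENNReal.ofReal X * J 1 ^ (1/2 : ℝ)) *
          (ENNReal.ofReal X * J 2 ^ (1/2 : ℝ)))) := by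
          gcongr
          refine stepB.trans ?_
          gcongr
          · exact stepC 0
          · exact stepC 1
          · exact stepC 2
      _ = _ := by
          set Y := ν ^ (-1/2 : ℝ) * cLW M * (6 * θ * ρ) ^ (3/2 : ℝ) with hY
          have hY0 : 0 ≤ Y := by rw [hY]; positivity
          rw [ENNReal.ofReal_mul (p := A * Y) (by positivity), ENNReal.ofReal_mul (p := A) hA,
            ENNReal.ofReal_pow hX0]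
          ring
  have e2 : I = ENNReal.ofReal (κ ^ 3 * c3⁻¹) * (ENNReal.ofReal ((κ ^ 3)⁻¹ * c3) * I) := by
    rw [← mul_assoc, ← ENNReal.ofReal_mul (by positivity)]
    have : κ ^ 3 * c3⁻¹ * ((κ ^ 3)⁻¹ * c3) = 1 := by field_simp
    rw [this, ENNReal.ofReal_one, one_mul]
  rw [e2]
  calc _ ≤ ENNReal.ofReal (κ ^ 3 * c3⁻¹) *
        (ENNReal.ofReal (A * (ν ^ (-1/2 : ℝ) * cLW M * (6 * θ * ρ) ^ (3/2 : ℝ)) * X ^ 3) *
        (J 0 ^ (1/2 : ℝ) * J 1 ^ (1/2 : ℝ) * J 2 ^ (1/2 : ℝ))) := by gcongr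
    _ = ENNReal.ofReal (κ ^ 3 * c3⁻¹ * (A * (ν ^ (-1/2 : ℝ) * cLW M * (6 * θ * ρ) ^ (3/2 : ℝ)) * X ^ 3)) *
        (J 0 ^ (1/2 : ℝ) * J 1 ^ (1/2 : ℝ) * J 2 ^ (1/2 : ℝ)) := by
        rw [← mul_assoc, ← ENNReal.ofReal_mul (by positivity)]
    _ ≤ _ := by
        refine mul_le_mul_left (ENNReal.ofReal_le_ofReal ?_) _
        -- real computation
        have hX3 : X ^ 3 = (κ ^ 3)⁻¹ * κ ^ (-(3/2) : ℝ) * cK ^ (3/2 : ℝ) := by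
          rw [hX, ← Real.rpow_natCast, ← Real.rpow_mul (by positivity),
            Real.mul_rpow (by positivity) hcK]
          norm_num
          left
          rw [← Real.rpow_natCast κ 3, ← Real.rpow_neg hκ0.le, ← Real.rpow_mul hκ0.le,
            ← Real.rpow_add hκ0]
          norm_num
        have hρκ : ρ = κ * (4 * (1 + L)) := by rw [hκ]; field_simp
        have e3 : (6 * θ * ρ) ^ (3/2 : ℝ) = 24 ^ (3/2 : ℝ) * (1 + L) ^ (3/2 : ℝ) * θ ^ (3/2 : ℝ) *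
            κ ^ (3/2 : ℝ) := by
          rw [hρκ, ← Real.mul_rpow (by norm_num) (by positivity),
            ← Real.mul_rpow (by positivity) hθ.le, ← Real.mul_rpow (by positivity) hκ0.le]
          congr 1; ring
        have e4 : κ ^ (3/2 : ℝ) * κ ^ (-(3/2) : ℝ) = 1 := by
          rw [← Real.rpow_add hκ0]; norm_num
        rw [hX3, e3]
        have e5 : κ ^ 3 * c3⁻¹ * (A * (ν ^ (-1/2 : ℝ) * cLW M * (24 ^ (3/2 : ℝ) * (1 + L) ^ (3/2 : ℝ) *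
            θ ^ (3/2 : ℝ) * κ ^ (3/2 : ℝ))) * ((κ ^ 3)⁻¹ * κ ^ (-(3/2) : ℝ) * cK ^ (3/2 : ℝ))) =
            c3⁻¹ * cLW M * cK ^ (3/2 : ℝ) * 24 ^ (3/2 : ℝ) * ν ^ (-1/2 : ℝ) * (1 + L) ^ (3/2 : ℝ) *
              θ ^ (3/2 : ℝ) * A * ((κ ^ 3 * (κ ^ 3)⁻¹) * (κ ^ (3/2 : ℝ) * κ ^ (-(3/2) : ℝ))) := by
          ring
        rw [e5, e4, mul_inv_cancel₀ (by positivity), mul_one, mul_one]
        have h1 : cLW M ≤ cLW M + 1 := by linarith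
        have h2 : cK ≤ cK + 1 := by linarith
        gcongr

end Vale.Agent.P106.Tri
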